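import Vale.Agent.Lib.P205X.XA1
import Vale.Agent.Lib.P205F.MD1

/-!
# P205X module XA2: a flat function of the surface in a chart

`b x = a (κ.symm x)` on `κ.target`, `0` elsewhere; roots: extend `θ ∘ κ.symm` by zero (`contDiff_of_zero_off` in
P205F/KE).
-/

noncomputable section

namespace P205F

open scoped Manifold ContDiff Topology
open Set

/-- a function smooth on an open set and zero off a closed subset of it is smooth -/
theorem XA2_zero_off {U C : Set E2} (hU : IsOpen U) (hC : IsClosed C) (hCU : C ⊆ U)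
    {w : E2 → ℝ} (hw : ContDiffOn ℝ ∞ w U) (h0 : ∀ x, x ∉ C → w x = 0) : ContDiff ℝ ∞ w := by
  rw [contDiff_iff_contDiffAt]
  intro x
  by_cases hx : x ∈ U
  · exact hw.contDiffAt (hU.mem_nhds hx)
  · have h1 : w =ᶠ[𝓝 x] fun _ => (0 : ℝ) := by
      filter_upwards [hC.isOpen_compl.mem_nhds (fun h => hx (hCU h))] with y hy
      exact h0 y hy
    exact contDiffAt_const.congr_of_eventuallyEq h1

variable {M : Type} [TopologicalSpace M] [ChartedSpace E2 M] [IsManifold 𝓘(ℝ, E2) ∞ M]

open Classical in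
theorem XA2_ext {κ : OpenPartialHomeomorph M E2} (hκ : κ ∈ ATL M)
    (ht : Metric.closedBall (0 : E2) 4 ⊆ κ.target) {θ : M → ℝ} (hθ : Sm θ)
    (hs : ∀ p, θ p ≠ 0 → p ∈ κ.source ∧ κ p ∈ Metric.closedBall (0 : E2) 1) :
    ContDiff ℝ ∞ (fun x => if x ∈ κ.target then θ (κ.symm x) else 0) := by
  refine XA2_zero_off κ.open_target Metric.isClosed_closedBall
    ((Metric.closedBall_subset_closedBall (by norm_num : (1 : ℝ) ≤ 4)).trans ht) ?_ ?_
  · refine (hθ.loc hκ).congr fun x hx => ?_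
    rw [if_pos hx]
    rfl
  · intro x hx
    by_cases hxt : x ∈ κ.target
    · rw [if_pos hxt]
      by_contra h1
      have h2 := (hs _ h1).2
      rw [κ.right_inv hxt] at h2
      exact hx h2
    · rw [if_neg hxt]

theorem exists_flatB {κ : OpenPartialHomeomorph M E2} (hκ : κ ∈ ATL M)
    (ht : Metric.closedBall (0 : E2) 4 ⊆ κ.target) {a : M → ℝ} (ha : Flat a)
    (hs : ∀ p, a p ≠ 0 → p ∈ κ.source ∧ κ p ∈ Metric.closedBall (0 : E2) 1) :
    ∃ b : E2 → ℝ, ES.FlatB b ∧ (∀ x ∈ κ.target, b x = a (κ.symm x)) ∧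
      ∀ x, b x ≠ 0 → x ∈ Metric.closedBall (0 : E2) 1 := by
  classical
  have hb1 : ∀ x, (if x ∈ κ.target then a (κ.symm x) else 0) ≠ 0 →
      x ∈ Metric.closedBall (0 : E2) 1 := by
    intro x hx
    by_cases hxt : x ∈ κ.target
    · rw [if_pos hxt] at hx
      have h2 := (hs _ hx).2
      rwa [κ.right_inv hxt] at h2
    · rw [if_neg hxt] at hx
      exact absurd rfl hx
  refine ⟨fun x => if x ∈ κ.target then a (κ.symm x) else 0, ?_, ?_, hb1⟩
  · refine flatB_of_roots ?_ hb1
    intro n hn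
    obtain ⟨θ, hθ, hθn⟩ := ha n hn
    refine ⟨fun x => if x ∈ κ.target then θ (κ.symm x) else 0, ?_, ?_⟩
    · refine XA2_ext hκ ht hθ fun p hp => hs p ?_
      rw [← (hθn p).2]
      exact pow_ne_zero n hp
    · intro x
      by_cases hxt : x ∈ κ.target
      · simp only [if_pos hxt]
        exact hθn _
      · simp only [if_neg hxt]
        exact ⟨le_rfl, zero_pow (by omega)⟩
  · intro x hx
    simp only [if_pos hx]

end P205F
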