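import Vale.Agent.Lib.P205F.MD1

/-!
# P205X module XB2: transfer of bounds from the chart `κ` to the chart `φ`

The transition map `τ = κ ∘ φ.symm` is smooth on the open set `φ.target ∩ φ.symm ⁻¹' κ.source`, and
`{x ∈ K2 | φ.symm x ∈ κ.source ∧ κ (φ.symm x) ∈ K1}` is compact (closed in `K2`: `φ.symm x ∈ κ.symm '' K1`, compact,
`M` Hausdorff), so its derivatives are bounded there.  Functions: `u ∘ φ.symm = (u ∘ κ.symm) ∘ τ` near `x`,
`norm_iteratedFDeriv_comp_le` (or the `Within` version).  Tensors: `locT_trans`.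
-/

noncomputable section

namespace P205F

open scoped Manifold ContDiff Topology
open Set

variable {M : Type} [TopologicalSpace M] [ChartedSpace E2 M] [IsManifold 𝓘(ℝ, E2) ∞ M] [T2Space M]

omit [IsManifold 𝓘(ℝ, E2) ∞ M] [T2Space M] in
theorem xb2_open (φ κ : OpenPartialHomeomorph M E2) :
    IsOpen (φ.target ∩ φ.symm ⁻¹' κ.source) := by
  have h := (φ.symm.trans κ).open_source
  have he : (φ.symm.trans κ).source = φ.target ∩ φ.symm ⁻¹' κ.source := by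
    rw [OpenPartialHomeomorph.trans_source, OpenPartialHomeomorph.symm_source]
  rwa [he] at h

omit [IsManifold 𝓘(ℝ, E2) ∞ M] in
theorem xb2_compact (φ κ : OpenPartialHomeomorph M E2)
    {K1 K2 : Set E2} (h1 : IsCompact K1) (h1t : K1 ⊆ κ.target) (h2 : IsCompact K2)
    (h2t : K2 ⊆ φ.target) :
    IsCompact {x | x ∈ K2 ∧ φ.symm x ∈ κ.source ∧ κ (φ.symm x) ∈ K1} := by
  have hC : IsCompact (κ.symm '' K1) :=
    h1.image_of_continuousOn (κ.continuousOn_symm.mono h1t)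
  have he : {x | x ∈ K2 ∧ φ.symm x ∈ κ.source ∧ κ (φ.symm x) ∈ K1} =
      K2 ∩ φ.symm ⁻¹' (κ.symm '' K1) := by
    ext x
    simp only [mem_setOf_eq, mem_inter_iff, mem_preimage, mem_image]
    constructor
    · rintro ⟨hx, hs, hk⟩
      exact ⟨hx, κ (φ.symm x), hk, κ.left_inv hs⟩
    · rintro ⟨hx, y, hy, hyx⟩
      refine ⟨hx, ?_, ?_⟩
      · rw [← hyx]
        exact κ.map_target (h1t hy)
      · rw [← hyx, κ.right_inv (h1t hy)]
        exact hy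
  rw [he]
  have hcl : IsClosed (K2 ∩ φ.symm ⁻¹' (κ.symm '' K1)) :=
    (φ.continuousOn_symm.mono h2t).preimage_isClosed_of_isClosed h2.isClosed hC.isClosed
  exact h2.of_isClosed_subset hcl inter_subset_left

/-- the bound for the transition map -/
theorem XB2_trans {φ κ : OpenPartialHomeomorph M E2} (hφ : φ ∈ ATL M) (hκ : κ ∈ ATL M)
    {K1 K2 : Set E2} (h1 : IsCompact K1) (h1t : K1 ⊆ κ.target) (h2 : IsCompact K2)
    (h2t : K2 ⊆ φ.target) (r : ℕ) : ∃ C : ℝ, 1 ≤ C ∧ ∀ x ∈ K2, φ.symm x ∈ κ.source →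
      κ (φ.symm x) ∈ K1 → ∀ j ≤ r, ‖iteratedFDeriv ℝ j (κ ∘ φ.symm) x‖ ≤ C := by
  have hK := xb2_compact φ κ h1 h1t h2 h2t
  have hO := xb2_open φ κ
  have hb : ∀ j : ℕ, ∃ C : ℝ, ∀ x ∈ {x | x ∈ K2 ∧ φ.symm x ∈ κ.source ∧ κ (φ.symm x) ∈ K1},
      ‖iteratedFDeriv ℝ j (κ ∘ φ.symm) x‖ ≤ C := by
    intro j
    apply hK.exists_bound_of_continuousOn
    intro x hx
    have hxO : x ∈ φ.target ∩ φ.symm ⁻¹' κ.source := ⟨h2t hx.1, hx.2.1⟩
    have hcd : ContDiffAt ℝ ∞ (κ ∘ φ.symm) x :=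
      (ATL_trans hφ hκ).contDiffAt (hO.mem_nhds hxO)
    have h3 : ContDiffAt ℝ 0 (iteratedFDeriv ℝ j (κ ∘ φ.symm)) x :=
      hcd.iteratedFDeriv_right (by
        rw [zero_add]
        exact_mod_cast le_top)
    exact h3.continuousAt.continuousWithinAt
  choose Cf hCf using hb
  refine ⟨1 + ∑ j ∈ Finset.range (r + 1), |Cf j|, ?_, ?_⟩
  · have : 0 ≤ ∑ j ∈ Finset.range (r + 1), |Cf j| :=
      Finset.sum_nonneg (fun j _ => abs_nonneg _)
    linarith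
  · intro x hx hs hk j hj
    have h3 := hCf j x ⟨hx, hs, hk⟩
    have h4 : |Cf j| ≤ ∑ j ∈ Finset.range (r + 1), |Cf j| :=
      Finset.single_le_sum (f := fun j => |Cf j|) (fun i _ => abs_nonneg _)
        (Finset.mem_range.2 (Nat.lt_succ_of_le hj))
    have h5 := le_abs_self (Cf j)
    linarith

theorem transfer_fun {φ κ : OpenPartialHomeomorph M E2} (hφ : φ ∈ ATL M) (hκ : κ ∈ ATL M)
    {K1 K2 : Set E2} (h1 : IsCompact K1) (h1t : K1 ⊆ κ.target) (h2 : IsCompact K2)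
    (h2t : K2 ⊆ φ.target) (r : ℕ) : ∃ C : ℝ, 0 < C ∧ ∀ (u : M → V4) (B : ℝ), Sm u → 0 ≤ B →
      ∀ x ∈ K2, φ.symm x ∈ κ.source → κ (φ.symm x) ∈ K1 →
      (∀ j ≤ r, ‖iteratedFDeriv ℝ j (u ∘ κ.symm) (κ (φ.symm x))‖ ≤ B) →
      ∀ j ≤ r, ‖iteratedFDeriv ℝ j (u ∘ φ.symm) x‖ ≤ C * B := by
  obtain ⟨D, hD1, hD⟩ := XB2_trans hφ hκ h1 h1t h2 h2t r
  have hD0 : 0 < D := lt_of_lt_of_le zero_lt_one hD1
  refine ⟨(r.factorial : ℝ) * D ^ r, by positivity, ?_⟩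
  intro u B hu hB x hx hs hk hj j hjr
  have hO := xb2_open φ κ
  have hxO : x ∈ φ.target ∩ φ.symm ⁻¹' κ.source := ⟨h2t hx, hs⟩
  have hmap : MapsTo (κ ∘ φ.symm) (φ.target ∩ φ.symm ⁻¹' κ.source) κ.target := by
    intro y hy
    exact κ.map_source hy.2
  have hev : (u ∘ φ.symm) =ᶠ[𝓝 x] (u ∘ κ.symm) ∘ (κ ∘ φ.symm) := by
    filter_upwards [hO.mem_nhds hxO] with y hy
    simp only [Function.comp_apply]
    rw [κ.left_inv hy.2]
  have h3 : iteratedFDeriv ℝ j (u ∘ φ.symm) x =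
      iteratedFDeriv ℝ j ((u ∘ κ.symm) ∘ (κ ∘ φ.symm)) x := (hev.iteratedFDeriv ℝ j).eq_of_nhds
  rw [h3, ← iteratedFDerivWithin_of_isOpen j hO hxO]
  have h4 := norm_iteratedFDerivWithin_comp_le (𝕜 := ℝ) (g := u ∘ κ.symm) (f := κ ∘ φ.symm)
    (n := j) (s := φ.target ∩ φ.symm ⁻¹' κ.source) (t := κ.target) (x := x) (N := ∞)
    (hu.loc hκ) (ATL_trans hφ hκ) (by exact_mod_cast le_top) κ.open_target.uniqueDiffOn
    hO.uniqueDiffOn hmap hxO (C := B) (D := D)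
    (by
      intro i hi
      have hy : (κ ∘ φ.symm) x ∈ κ.target := hmap hxO
      rw [iteratedFDerivWithin_of_isOpen i κ.open_target hy]
      exact hj i (hi.trans hjr))
    (by
      intro i hi1 hi
      rw [iteratedFDerivWithin_of_isOpen i hO hxO]
      exact (hD x hx hs hk i (hi.trans hjr)).trans (le_self_pow₀ hD1 (by omega)))
  refine h4.trans ?_
  have h5 : (j.factorial : ℝ) ≤ r.factorial := by exact_mod_cast Nat.factorial_le hjr
  have h6 : D ^ j ≤ D ^ r := pow_le_pow_right₀ hD1 hjr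
  calc (j.factorial : ℝ) * B * D ^ j ≤ (r.factorial : ℝ) * B * D ^ r := by gcongr
    _ = (r.factorial : ℝ) * D ^ r * B := by ring

end P205F
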