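import Vale.Agent.Lib.P205X.XDefs
import Vale.Agent.Lib.P205X.XB2

/-!
# P205X module XD1: derivatives of the family in the charts of the atlas

At a point `p` with `κ p ∈ closedBall 0 2`: `transfer_fun` with `K1 = closedBall 0 2`, `K2 = closedBall 0 3`; at the other
points the family is `f` near `p`, and the derivatives of `f` are bounded on the compact balls.
-/

noncomputable section

namespace P205F

open scoped Manifold ContDiff Topology RealInnerProductSpace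
open Set

/-- bounds for finitely many derivatives of a smooth function on a compact set -/
theorem XD1_compact {G : E2 → V4} {O K : Set E2} (hO : IsOpen O) (hG : ContDiffOn ℝ ∞ G O)
    (hK : IsCompact K) (hKO : K ⊆ O) (s : ℕ) :
    ∃ D : ℝ, 0 ≤ D ∧ ∀ x ∈ K, ∀ j ≤ s, ‖iteratedFDeriv ℝ j G x‖ ≤ D := by
  have hb : ∀ j : ℕ, ∃ D : ℝ, ∀ x ∈ K, ‖iteratedFDeriv ℝ j G x‖ ≤ D := by
    intro j
    have h1 : ContinuousOn (iteratedFDerivWithin ℝ j G O) O :=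
      hG.continuousOn_iteratedFDerivWithin (by exact_mod_cast le_top) hO.uniqueDiffOn
    obtain ⟨D, hD⟩ := hK.exists_bound_of_continuousOn (h1.mono hKO)
    refine ⟨D, fun x hx => ?_⟩
    have h2 := hD x hx
    rwa [iteratedFDerivWithin_of_isOpen j hO (hKO hx)] at h2
  choose D hD using hb
  refine ⟨∑ j ∈ Finset.range (s + 1), |D j|, Finset.sum_nonneg fun _ _ => abs_nonneg _,
    fun x hx j hj => ?_⟩
  refine (hD j x hx).trans ((le_abs_self _).trans ?_)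
  exact Finset.single_le_sum (f := fun j => |D j|) (fun _ _ => abs_nonneg _)
    (Finset.mem_range.2 (by omega))

variable {M : Type} [TopologicalSpace M] [ChartedSpace E2 M] [IsManifold 𝓘(ℝ, E2) ∞ M] [T2Space M]
  {tf : ℝ → ℝ}

omit [IsManifold 𝓘(ℝ, E2) ∞ M] [T2Space M] in
/-- the bound in the chart `κ` -/
theorem XD1_fam (c : Cfg M tf) {K : ℕ} {F : ℝ → E2 → V4} (h : c.IsFam K F) (s : ℕ) :
    ∃ C : ℝ, 0 ≤ C ∧ ∀ ε ∈ Ioo (0 : ℝ) 1, ∀ x ∈ Metric.ball (0 : E2) 3, ∀ j ≤ s,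
      ‖iteratedFDeriv ℝ j (c.gl F ε ∘ c.κ.symm) x‖ ≤ C * ε⁻¹ ^ (s + 1) := by
  choose C hC using h.bound
  refine ⟨∑ j ∈ Finset.range (s + 1), |C j|, Finset.sum_nonneg fun _ _ => abs_nonneg _,
    fun ε hε x hx j hj => ?_⟩
  have hxt : x ∈ c.κ.target :=
    c.ht (Metric.closedBall_subset_closedBall (by norm_num) (Metric.ball_subset_closedBall hx))
  have heq : c.gl F ε ∘ c.κ.symm =ᶠ[𝓝 x] F ε := by
    filter_upwards [c.κ.open_target.mem_nhds hxt] with y hy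
    exact glob_chart c.κ c.f (F ε) hy
  rw [(heq.iteratedFDeriv ℝ j).eq_of_nhds]
  have h1 : (1 : ℝ) ≤ ε⁻¹ := one_le_inv_iff₀.2 ⟨hε.1, hε.2.le⟩
  have h2 : ε⁻¹ ^ (j + 1) ≤ ε⁻¹ ^ (s + 1) := pow_le_pow_right₀ h1 (by omega)
  have h3 : (0 : ℝ) ≤ ε⁻¹ ^ (j + 1) := by positivity
  have h4 : |C j| ≤ ∑ j ∈ Finset.range (s + 1), |C j| :=
    Finset.single_le_sum (f := fun j => |C j|) (fun _ _ => abs_nonneg _)
      (Finset.mem_range.2 (by omega))
  calc ‖iteratedFDeriv ℝ j (F ε) x‖ ≤ C j * ε⁻¹ ^ (j + 1) := hC j ε hε x hx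
    _ ≤ |C j| * ε⁻¹ ^ (j + 1) := mul_le_mul_of_nonneg_right (le_abs_self _) h3
    _ ≤ (∑ j ∈ Finset.range (s + 1), |C j|) * ε⁻¹ ^ (s + 1) :=
        mul_le_mul h4 h2 h3 ((abs_nonneg _).trans h4)

theorem XD1_bound (c : Cfg M tf) (𝒜 : FinAtlas M) {K : ℕ} {F : ℝ → E2 → V4} (h : c.IsFam K F)
    (s : ℕ) : ∃ C : ℝ, ∀ ε ∈ Ioo (0 : ℝ) 1, ∀ p, ClAt 𝒜 s (c.gl F ε) (C * ε⁻¹ ^ (s + 1)) p := by
  obtain ⟨C0, hC0, hfam⟩ := XD1_fam c h s
  have key : ∀ k : Fin 𝒜.n, ∃ C : ℝ, ∀ ε ∈ Ioo (0 : ℝ) 1, ∀ p, p ∈ (𝒜.φ k).source →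
      𝒜.φ k p ∈ Metric.closedBall (0 : E2) 3 → ∀ j ≤ s,
      ‖iteratedFDeriv ℝ j (c.gl F ε ∘ (𝒜.φ k).symm) (𝒜.φ k p)‖ ≤ C * ε⁻¹ ^ (s + 1) := by
    intro k
    have hsub : Metric.closedBall (0 : E2) 3 ⊆ (𝒜.φ k).target :=
      (Metric.closedBall_subset_closedBall (by norm_num)).trans (𝒜.target k)
    have hsub2 : Metric.closedBall (0 : E2) 2 ⊆ c.κ.target :=
      (Metric.closedBall_subset_closedBall (by norm_num)).trans c.ht
    obtain ⟨C1, hC1, htr⟩ := transfer_fun (𝒜.mem k) c.hκ (isCompact_closedBall (0 : E2) 2) hsub2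
      (isCompact_closedBall (0 : E2) 3) hsub s
    obtain ⟨D, hD0, hD⟩ := XD1_compact (𝒜.φ k).open_target (c.hf.loc (𝒜.mem k))
      (isCompact_closedBall (0 : E2) 3) hsub s
    refine ⟨max (C1 * C0) D, fun ε hε p hp hp3 j hj => ?_⟩
    have h1 : (1 : ℝ) ≤ ε⁻¹ := one_le_inv_iff₀.2 ⟨hε.1, hε.2.le⟩
    have h2 : (1 : ℝ) ≤ ε⁻¹ ^ (s + 1) := one_le_pow₀ h1
    have h2' : (0 : ℝ) ≤ ε⁻¹ ^ (s + 1) := by linarith
    have hsymm : (𝒜.φ k).symm (𝒜.φ k p) = p := (𝒜.φ k).left_inv hp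
    by_cases hc : p ∈ c.κ.source ∧ c.κ p ∈ Metric.closedBall (0 : E2) 2
    · have h3 := htr (c.gl F ε) (C0 * ε⁻¹ ^ (s + 1)) (Cfg.sm_gl h hε) (mul_nonneg hC0 h2')
        (𝒜.φ k p) hp3 (by rw [hsymm]; exact hc.1) (by rw [hsymm]; exact hc.2)
        (by
          rw [hsymm]
          intro j hj
          exact hfam ε hε _ (Metric.closedBall_subset_ball (by norm_num) hc.2) j hj) j hj
      refine h3.trans ?_
      rw [← mul_assoc]
      exact mul_le_mul_of_nonneg_right (le_max_left _ _) h2'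
    · have hnot : ¬ (p ∈ c.κ.source ∧ c.κ p ∈ Metric.closedBall (0 : E2) (7 / 4)) := by
        rintro ⟨ha, hb⟩
        exact hc ⟨ha, Metric.closedBall_subset_closedBall (by norm_num) hb⟩
      have hnear : c.gl F ε =ᶠ[𝓝 p] c.f := glob_near c.ht (Cfg.off h hε) hnot
      have heq : c.gl F ε ∘ (𝒜.φ k).symm =ᶠ[𝓝 (𝒜.φ k p)] c.f ∘ (𝒜.φ k).symm := by
        have hcont : ContinuousAt (𝒜.φ k).symm (𝒜.φ k p) :=
          (𝒜.φ k).continuousAt_symm ((𝒜.φ k).map_source hp)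
        have h4 : Filter.Tendsto (𝒜.φ k).symm (𝓝 (𝒜.φ k p)) (𝓝 p) := by
          have h5 := hcont.tendsto
          rwa [hsymm] at h5
        exact h4.eventually hnear
      rw [(heq.iteratedFDeriv ℝ j).eq_of_nhds]
      refine (hD _ hp3 j hj).trans ?_
      calc D = D * 1 := (mul_one D).symm
        _ ≤ D * ε⁻¹ ^ (s + 1) := mul_le_mul_of_nonneg_left h2 hD0
        _ ≤ max (C1 * C0) D * ε⁻¹ ^ (s + 1) := mul_le_mul_of_nonneg_right (le_max_right _ _) h2'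
  choose C hC using key
  obtain ⟨C', hC'⟩ := (Set.finite_range C).bddAbove
  refine ⟨C', fun ε hε p k hp hp3 j hj => (hC k ε hε p hp hp3 j hj).trans ?_⟩
  have h1 : (0 : ℝ) ≤ ε⁻¹ ^ (s + 1) := by
    have := hε.1
    positivity
  exact mul_le_mul_of_nonneg_right (hC' ⟨k, rfl⟩) h1

end P205F
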