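import Vale.Agent.Lib.P205X.XB2

/-!
# P205X module XB3: transfer of bounds for tensors, from the chart `κ` to the chart `φ`
-/

noncomputable section

namespace P205F

open scoped Manifold ContDiff Topology
open Set

set_option maxSynthPendingDepth 3

variable {M : Type} [TopologicalSpace M] [ChartedSpace E2 M]

theorem locT_sub (φ : OpenPartialHomeomorph M E2) (H H' : M → Bil) (x : E2) :
    locT φ (fun p => H p - H' p) x = locT φ H x - locT φ H' x := by
  refine ContinuousLinearMap.ext fun v => ContinuousLinearMap.ext fun w => ?_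
  simp only [locT, ContinuousLinearMap.bilinearComp_apply, sub_apply]

theorem XB3_smul {f : E2 → ℝ} {x : E2} (hf : ContDiffAt ℝ ∞ f x) {j : ℕ} {B : ℝ}
    (h : ‖iteratedFDeriv ℝ j f x‖ ≤ B) {α β : E2 →L[ℝ] ℝ} (hα : ‖α‖ ≤ 1) (hβ : ‖β‖ ≤ 1) :
    ‖iteratedFDeriv ℝ j (fun y => f y • (α.smulRight β : Bil)) x‖ ≤ B := by
  have h1 := (ContinuousLinearMap.toSpanSingleton ℝ
    (α.smulRight β : Bil)).norm_iteratedFDeriv_comp_left hf (n := j) (by exact_mod_cast le_top)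
  have h2 : ‖ContinuousLinearMap.toSpanSingleton ℝ (α.smulRight β : Bil)‖ ≤ 1 := by
    rw [ContinuousLinearMap.norm_toSpanSingleton, ContinuousLinearMap.norm_smulRight_apply]
    exact mul_le_one₀ hα (norm_nonneg _) hβ
  calc ‖iteratedFDeriv ℝ j (fun y => f y • (α.smulRight β : Bil)) x‖
      ≤ ‖ContinuousLinearMap.toSpanSingleton ℝ (α.smulRight β : Bil)‖ *
        ‖iteratedFDeriv ℝ j f x‖ := h1
    _ ≤ 1 * B := mul_le_mul h2 h (norm_nonneg _) zero_le_one
    _ = B := one_mul B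

/-- derivatives of a `Bil`-valued function from those of the components -/
theorem XB3_comp {G : E2 → Bil} {x : E2} (hG : ContDiffAt ℝ ∞ G x) {j : ℕ} {B : ℝ}
    (h : ∀ v w : E2, (v = (1, 0) ∨ v = (0, 1)) → (w = (1, 0) ∨ w = (0, 1)) →
      ‖iteratedFDeriv ℝ j (fun y => G y v w) x‖ ≤ B) : ‖iteratedFDeriv ℝ j G x‖ ≤ 4 * B := by
  have hc : ∀ v w : E2, ContDiffAt ℝ ∞ (fun y => G y v w) x := fun v w =>
    (hG.clm_apply contDiffAt_const).clm_apply contDiffAt_const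
  have n1 : ‖ContinuousLinearMap.fst ℝ ℝ ℝ‖ ≤ 1 := ContinuousLinearMap.norm_fst_le ℝ ℝ ℝ
  have n2 : ‖ContinuousLinearMap.snd ℝ ℝ ℝ‖ ≤ 1 := ContinuousLinearMap.norm_snd_le ℝ ℝ ℝ
  set p := ContinuousLinearMap.fst ℝ ℝ ℝ with hp
  set q := ContinuousLinearMap.snd ℝ ℝ ℝ with hq
  have e : G = (fun y => G y (1, 0) (1, 0) • (p.smulRight p : Bil))
      + (fun y => G y (1, 0) (0, 1) • (p.smulRight q : Bil))
      + (fun y => G y (0, 1) (1, 0) • (q.smulRight p : Bil))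
      + (fun y => G y (0, 1) (0, 1) • (q.smulRight q : Bil)) := by
    funext y
    refine ContinuousLinearMap.ext fun v => ContinuousLinearMap.ext fun w => ?_
    have hv : ∀ v : E2, v = v.1 • ((1, 0) : E2) + v.2 • ((0, 1) : E2) := fun v => by
      ext <;> simp
    have h1 : G y v w = v.1 * (w.1 * G y (1, 0) (1, 0) + w.2 * G y (1, 0) (0, 1))
        + v.2 * (w.1 * G y (0, 1) (1, 0) + w.2 * G y (0, 1) (0, 1)) := by
      conv_lhs => rw [hv v, hv w]
      simp only [map_add, map_smul, add_apply, smul_apply, smul_eq_mul]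
      ring
    rw [h1]
    simp only [Pi.add_apply, add_apply, smul_apply, ContinuousLinearMap.smulRight_apply,
      smul_eq_mul, hp, hq, ContinuousLinearMap.coe_fst', ContinuousLinearMap.coe_snd']
    ring
  have hj : ((j : ℕ) : WithTop ℕ∞) ≤ ∞ := by exact_mod_cast le_top
  have c1 : ContDiffAt ℝ j (fun y => G y (1, 0) (1, 0) • (p.smulRight p : Bil)) x :=
    ((hc _ _).smul contDiffAt_const).of_le hj
  have c2 : ContDiffAt ℝ j (fun y => G y (1, 0) (0, 1) • (p.smulRight q : Bil)) x :=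
    ((hc _ _).smul contDiffAt_const).of_le hj
  have c3 : ContDiffAt ℝ j (fun y => G y (0, 1) (1, 0) • (q.smulRight p : Bil)) x :=
    ((hc _ _).smul contDiffAt_const).of_le hj
  have c4 : ContDiffAt ℝ j (fun y => G y (0, 1) (0, 1) • (q.smulRight q : Bil)) x :=
    ((hc _ _).smul contDiffAt_const).of_le hj
  have d1 := XB3_smul (hc _ _) (h (1, 0) (1, 0) (Or.inl rfl) (Or.inl rfl)) n1 n1
  have d2 := XB3_smul (hc _ _) (h (1, 0) (0, 1) (Or.inl rfl) (Or.inr rfl)) n1 n2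
  have d3 := XB3_smul (hc _ _) (h (0, 1) (1, 0) (Or.inr rfl) (Or.inl rfl)) n2 n1
  have d4 := XB3_smul (hc _ _) (h (0, 1) (0, 1) (Or.inr rfl) (Or.inr rfl)) n2 n2
  have c12 : ContDiffAt ℝ j ((fun y => G y (1, 0) (1, 0) • (p.smulRight p : Bil))
      + (fun y => G y (1, 0) (0, 1) • (p.smulRight q : Bil))) x := c1.add c2
  have c123 : ContDiffAt ℝ j ((fun y => G y (1, 0) (1, 0) • (p.smulRight p : Bil))
      + (fun y => G y (1, 0) (0, 1) • (p.smulRight q : Bil))
      + (fun y => G y (0, 1) (1, 0) • (q.smulRight p : Bil))) x := c12.add c3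
  rw [e, iteratedFDeriv_add_apply c123 c4, iteratedFDeriv_add_apply c12 c3,
    iteratedFDeriv_add_apply c1 c2]
  refine (norm_add_le _ _).trans ?_
  have e3 := norm_add_le (iteratedFDeriv ℝ j (fun y => G y (1, 0) (1, 0) • (p.smulRight p : Bil)) x
    + iteratedFDeriv ℝ j (fun y => G y (1, 0) (0, 1) • (p.smulRight q : Bil)) x)
    (iteratedFDeriv ℝ j (fun y => G y (0, 1) (1, 0) • (q.smulRight p : Bil)) x)
  have e4 := norm_add_le (iteratedFDeriv ℝ j (fun y => G y (1, 0) (1, 0) • (p.smulRight p : Bil)) x)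
    (iteratedFDeriv ℝ j (fun y => G y (1, 0) (0, 1) • (p.smulRight q : Bil)) x)
  linarith

theorem XB3_app {F G : Type} [NormedAddCommGroup F] [NormedSpace ℝ F] [NormedAddCommGroup G]
    [NormedSpace ℝ G] {f : E2 → F →L[ℝ] G} {g : E2 → F} {x : E2} {U : Set E2} (hU : IsOpen U)
    (hx : x ∈ U) (hf : ContDiffOn ℝ ∞ f U) (hg : ContDiffOn ℝ ∞ g U) {r : ℕ} {P Q : ℝ}
    (hP : ∀ i ≤ r, ‖iteratedFDeriv ℝ i f x‖ ≤ P) (hQ : ∀ i ≤ r, ‖iteratedFDeriv ℝ i g x‖ ≤ Q) :
    ∀ j ≤ r, ‖iteratedFDeriv ℝ j (fun y => f y (g y)) x‖ ≤ 2 ^ r * P * Q := by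
  intro j hj
  have hP0 : 0 ≤ P := (norm_nonneg _).trans (hP 0 (Nat.zero_le _))
  have hQ0 : 0 ≤ Q := (norm_nonneg _).trans (hQ 0 (Nat.zero_le _))
  have h := norm_iteratedFDerivWithin_clm_apply hf hg hU.uniqueDiffOn hx (n := j)
    (by exact_mod_cast le_top)
  have e1 : iteratedFDerivWithin ℝ j (fun y => f y (g y)) U x =
      iteratedFDeriv ℝ j (fun y => f y (g y)) x := iteratedFDerivWithin_of_isOpen j hU hx
  rw [e1] at h
  refine h.trans ?_
  calc ∑ i ∈ Finset.range (j + 1), ((j.choose i : ℕ) : ℝ) * ‖iteratedFDerivWithin ℝ i f U x‖ *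
        ‖iteratedFDerivWithin ℝ (j - i) g U x‖
      ≤ ∑ i ∈ Finset.range (j + 1), ((j.choose i : ℕ) : ℝ) * (P * Q) := by
        refine Finset.sum_le_sum fun i hi => ?_
        have hi' : i ≤ j := by
          rw [Finset.mem_range] at hi
          omega
        rw [mul_assoc]
        refine mul_le_mul_of_nonneg_left ?_ (Nat.cast_nonneg _)
        have a1 : ‖iteratedFDerivWithin ℝ i f U x‖ ≤ P := by
          rw [iteratedFDerivWithin_of_isOpen i hU hx]
          exact hP i (by omega)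
        have a2 : ‖iteratedFDerivWithin ℝ (j - i) g U x‖ ≤ Q := by
          rw [iteratedFDerivWithin_of_isOpen (j - i) hU hx]
          exact hQ (j - i) (by omega)
        exact mul_le_mul a1 a2 (norm_nonneg _) hP0
    _ = 2 ^ j * (P * Q) := by
        rw [← Finset.sum_mul]
        congr 1
        exact_mod_cast Nat.sum_range_choose j
    _ ≤ 2 ^ r * (P * Q) := by
        refine mul_le_mul_of_nonneg_right ?_ (by positivity)
        exact pow_le_pow_right₀ (by norm_num) hj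
    _ = 2 ^ r * P * Q := by ring

variable [IsManifold 𝓘(ℝ, E2) ∞ M] [T2Space M]

theorem transfer_ten {φ κ : OpenPartialHomeomorph M E2} (hφ : φ ∈ ATL M) (hκ : κ ∈ ATL M)
    {K1 K2 : Set E2} (h1 : IsCompact K1) (h1t : K1 ⊆ κ.target) (h2 : IsCompact K2)
    (h2t : K2 ⊆ φ.target) (r : ℕ) : ∃ C : ℝ, 0 < C ∧ ∀ (H : M → Bil) (B : ℝ), SmT H → 0 ≤ B →
      ∀ x ∈ K2, φ.symm x ∈ κ.source → κ (φ.symm x) ∈ K1 →
      (∀ j ≤ r, ‖iteratedFDeriv ℝ j (locT κ H) (κ (φ.symm x))‖ ≤ B) →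
      ∀ j ≤ r, ‖iteratedFDeriv ℝ j (locT φ H) x‖ ≤ C * B := by
  obtain ⟨C, hC1, hC⟩ := XB2_trans hφ hκ h1 h1t h2 h2t (r + 1)
  have hC0 : 0 < C := by linarith
  refine ⟨4 * (2 ^ r * (2 ^ r * ((r.factorial : ℝ) * C ^ r) * C) * C), ?_, ?_⟩
  · have : (0 : ℝ) < r.factorial := by exact_mod_cast r.factorial_pos
    positivity
  intro H B hH hB x hx hxs hxK hbd j hj
  set τ : E2 → E2 := κ ∘ φ.symm with hτ
  set U : Set E2 := φ.target ∩ φ.symm ⁻¹' κ.source with hU'
  have hU : IsOpen U := by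
    have h := (φ.symm.trans κ).open_source
    rwa [OpenPartialHomeomorph.trans_source, OpenPartialHomeomorph.symm_source] at h
  have hxU : x ∈ U := ⟨h2t hx, hxs⟩
  have hτs : ContDiffOn ℝ ∞ τ U := ATL_trans hφ hκ
  have hτm : MapsTo τ U κ.target := fun y hy => κ.map_source hy.2
  have hτx : τ x = κ (φ.symm x) := rfl
  have hHκ : ContDiffOn ℝ ∞ (locT κ H) κ.target := hH κ hκ
  have hτd : ∀ i ≤ r + 1, ‖iteratedFDeriv ℝ i τ x‖ ≤ C := fun i hi => hC x hx hxs hxK i hi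
  -- the composed function
  set P : E2 → Bil := locT κ H ∘ τ with hPdef
  have hPs : ContDiffOn ℝ ∞ P U := hHκ.comp hτs hτm
  have hPb : ∀ i ≤ r, ‖iteratedFDeriv ℝ i P x‖ ≤ (r.factorial : ℝ) * C ^ r * B := by
    intro i hi
    have h := norm_iteratedFDerivWithin_comp_le hHκ hτs (n := i) (by exact_mod_cast le_top)
      κ.open_target.uniqueDiffOn hU.uniqueDiffOn hτm hxU (C := B) (D := C) (fun l hl => by
        rw [iteratedFDerivWithin_of_isOpen l κ.open_target (hτm hxU)]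
        exact hbd l (hl.trans hi)) (fun l hl1 hl2 => by
        rw [iteratedFDerivWithin_of_isOpen l hU hxU]
        exact (hτd l (by omega)).trans (le_self_pow₀ hC1 (by omega)))
    rw [iteratedFDerivWithin_of_isOpen i hU hxU] at h
    refine h.trans ?_
    have f1 : (i.factorial : ℝ) ≤ r.factorial := by exact_mod_cast Nat.factorial_le hi
    have f2 : C ^ i ≤ C ^ r := pow_le_pow_right₀ hC1 hi
    calc (i.factorial : ℝ) * B * C ^ i ≤ (r.factorial : ℝ) * B * C ^ r :=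
          mul_le_mul (mul_le_mul_of_nonneg_right f1 hB) f2 (by positivity) (by positivity)
      _ = (r.factorial : ℝ) * C ^ r * B := by ring
  have hDs : ContDiffOn ℝ ∞ (fderiv ℝ τ) U := hτs.fderiv_of_isOpen hU (by simp)
  have hDb : ∀ i ≤ r, ∀ v : E2, ‖v‖ ≤ 1 →
      ‖iteratedFDeriv ℝ i (fun y => fderiv ℝ τ y v) x‖ ≤ C := by
    intro i hi v hv
    have h := norm_iteratedFDeriv_clm_apply_const (c := v) (n := i)
      (hDs.contDiffAt (hU.mem_nhds hxU)) (by exact_mod_cast le_top)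
    rw [norm_iteratedFDeriv_fderiv] at h
    calc _ ≤ ‖v‖ * ‖iteratedFDeriv ℝ (i + 1) τ x‖ := h
      _ ≤ 1 * C := mul_le_mul hv (hτd _ (by omega)) (norm_nonneg _) zero_le_one
      _ = C := one_mul C
  have hDv : ∀ v : E2, ContDiffOn ℝ ∞ (fun y => fderiv ℝ τ y v) U := fun v =>
    hDs.clm_apply contDiffOn_const
  have hev : ∀ v w : E2, (fun y => locT φ H y v w) =ᶠ[𝓝 x]
      fun y => P y (fderiv ℝ τ y v) (fderiv ℝ τ y w) := by
    intro v w
    filter_upwards [hU.mem_nhds hxU] with y hy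
    rw [locT_trans H hφ hκ hy.1 hy.2]
    rfl
  have hcomp : ∀ v w : E2, ‖v‖ ≤ 1 → ‖w‖ ≤ 1 →
      ‖iteratedFDeriv ℝ j (fun y => locT φ H y v w) x‖ ≤
        2 ^ r * (2 ^ r * ((r.factorial : ℝ) * C ^ r * B) * C) * C := by
    intro v w hv hw
    rw [(Filter.EventuallyEq.iteratedFDeriv ℝ (hev v w) j).eq_of_nhds]
    have s1 : ContDiffOn ℝ ∞ (fun y => P y (fderiv ℝ τ y v)) U := hPs.clm_apply (hDv v)
    have b1 := XB3_app hU hxU hPs (hDv v) hPb (fun i hi => hDb i hi v hv)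
    exact XB3_app hU hxU s1 (hDv w) b1 (fun i hi => hDb i hi w hw) j hj
  have hcd : ContDiffAt ℝ ∞ (locT φ H) x := (hH φ hφ).contDiffAt (φ.open_target.mem_nhds (h2t hx))
  have hn : ∀ v : E2, (v = (1, 0) ∨ v = (0, 1)) → ‖v‖ ≤ 1 := by
    rintro v (rfl | rfl) <;> simp [Prod.norm_def]
  have h := XB3_comp hcd (fun v w hv hw => hcomp v w (hn v hv) (hn w hw))
  refine h.trans (le_of_eq ?_)
  ring

end P205F
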