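import Vale.Agent.Lib.P205X.XDefs
import Vale.Agent.Lib.P205X.XB3

/-!
# P205X module XD2: the metric of the family in the charts of the atlas

In the chart `κ` on `ball 0 3`: `locT κ (metr (gl ε)) = metrU (F ε)` (`locT_metr`, the local expression of `gl` is `F ε`),
`locT κ tgt = metrU (f ∘ κ.symm) + b² sqC fst` (`locT_sq1_self`), components: field `metric` of `Fam`, `XB3_comp`; then
`transfer_ten`.  Off `closedBall 0 (7/4)` the difference vanishes near the point.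
-/

noncomputable section

namespace P205F

open scoped Manifold ContDiff Topology RealInnerProductSpace
open Set

variable {M : Type} [TopologicalSpace M] [ChartedSpace E2 M] [IsManifold 𝓘(ℝ, E2) ∞ M] [T2Space M]
  {tf : ℝ → ℝ}

theorem XD2_smT (c : Cfg M tf) : SmT c.tgt :=
  (smT_metr c.hf).add (smT_sq1 c.hκ c.ht c.ha c.hs)

omit [IsManifold 𝓘(ℝ, E2) ∞ M] [T2Space M] in
theorem XD2_symm (c : Cfg M tf) (p : M) (v w : E2) : c.tgt p v w = c.tgt p w v := by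
  simp only [Cfg.tgt, metr, sq1, sqC, add_apply, smul_apply,
    ContinuousLinearMap.bilinearComp_apply, ContinuousLinearMap.smulRight_apply, smul_eq_mul,
    innerSL_apply_apply]
  rw [real_inner_comm]
  ring

/-- components of the difference of the metrics in the chart `κ` -/
theorem XD2_eq (c : Cfg M tf) {K : ℕ} {F : ℝ → E2 → V4} (h : c.IsFam K F) {ε : ℝ}
    (hε : ε ∈ Ioo (0 : ℝ) 1) {z : E2} (hz : z ∈ c.κ.target) (v w : E2) :
    locT c.κ (fun p => c.tgt p - metr (c.gl F ε) p) z v w =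
      -(ES.gm (F ε) v w z - ES.gm (c.f ∘ c.κ.symm) v w z - c.b z ^ 2 * (v.1 * w.1)) := by
  have h1 : locT c.κ (metr (c.gl F ε)) z = metrU (F ε) z := by
    rw [locT_metr (Cfg.sm_gl h hε) c.hκ hz]
    have h2 : (c.gl F ε) ∘ c.κ.symm =ᶠ[𝓝 z] F ε := by
      filter_upwards [c.κ.open_target.mem_nhds hz] with y hy
      exact glob_chart _ _ _ hy
    unfold metrU
    rw [h2.fderiv_eq]
  have h2 : locT c.κ c.tgt z = metrU (c.f ∘ c.κ.symm) z +
      c.b z ^ 2 • sqC (ContinuousLinearMap.fst ℝ ℝ ℝ) := by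
    have h3 : locT c.κ c.tgt z = locT c.κ (metr c.f) z +
        c.a (c.κ.symm z) ^ 2 • locT c.κ (sq1 c.κ) z := by
      refine ContinuousLinearMap.ext fun v => ContinuousLinearMap.ext fun w => ?_
      rfl
    rw [h3, locT_metr c.hf c.hκ hz, locT_sq1_self c.hκ hz, c.hb z hz]
  rw [locT_sub, h1, h2]
  simp only [metrU, ES.gm, sqC, add_apply, smul_apply, sub_apply,
    ContinuousLinearMap.bilinearComp_apply, ContinuousLinearMap.smulRight_apply, smul_eq_mul,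
    innerSL_apply_apply, ContinuousLinearMap.coe_fst']
  ring

omit [IsManifold 𝓘(ℝ, E2) ∞ M] [T2Space M] in
/-- one constant for all components and all orders -/
theorem XD2_bnd (c : Cfg M tf) {K : ℕ} {F : ℝ → E2 → V4} (h : c.IsFam K F) (s : ℕ) :
    ∃ C : ℝ, 0 ≤ C ∧ ∀ ε ∈ Ioo (0 : ℝ) 1, ∀ x ∈ Metric.ball (0 : E2) 3, ∀ j ≤ s, ∀ v w : E2,
      (v = (1, 0) ∨ v = (0, 1)) → (w = (1, 0) ∨ w = (0, 1)) →
      ‖iteratedFDeriv ℝ j (fun z => ES.gm (F ε) v w z - ES.gm (c.f ∘ c.κ.symm) v w z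
        - c.b z ^ 2 * (v.1 * w.1)) x‖ ≤ C * ε ^ K * ε⁻¹ ^ (s + 1) := by
  have h1 : ∀ j : ℕ, ∃ C : ℝ, 0 ≤ C ∧ ∀ ε ∈ Ioo (0 : ℝ) 1, ∀ x ∈ Metric.ball (0 : E2) 3,
      ∀ v w : E2, (v = (1, 0) ∨ v = (0, 1)) → (w = (1, 0) ∨ w = (0, 1)) →
      ‖iteratedFDeriv ℝ j (fun z => ES.gm (F ε) v w z - ES.gm (c.f ∘ c.κ.symm) v w z
        - c.b z ^ 2 * (v.1 * w.1)) x‖ ≤ C * ε ^ K * ε⁻¹ ^ (j + 1) := by
    intro j
    obtain ⟨C1, H1⟩ := h.metric (1, 0) (1, 0) (Or.inl rfl) (Or.inl rfl) j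
    obtain ⟨C2, H2⟩ := h.metric (1, 0) (0, 1) (Or.inl rfl) (Or.inr rfl) j
    obtain ⟨C3, H3⟩ := h.metric (0, 1) (1, 0) (Or.inr rfl) (Or.inl rfl) j
    obtain ⟨C4, H4⟩ := h.metric (0, 1) (0, 1) (Or.inr rfl) (Or.inr rfl) j
    refine ⟨|C1| + |C2| + |C3| + |C4|, by positivity, fun ε hε x hx v w hv hw => ?_⟩
    have hp : (0 : ℝ) ≤ ε ^ K * ε⁻¹ ^ (j + 1) := by
      have := hε.1
      positivity
    have hle : ∀ C : ℝ, C ≤ |C1| + |C2| + |C3| + |C4| → C * ε ^ K * ε⁻¹ ^ (j + 1) ≤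
        (|C1| + |C2| + |C3| + |C4|) * ε ^ K * ε⁻¹ ^ (j + 1) := by
      intro C hC
      rw [mul_assoc, mul_assoc]
      exact mul_le_mul_of_nonneg_right hC hp
    have a1 := le_abs_self C1
    have a2 := le_abs_self C2
    have a3 := le_abs_self C3
    have a4 := le_abs_self C4
    have b1 := abs_nonneg C1
    have b2 := abs_nonneg C2
    have b3 := abs_nonneg C3
    have b4 := abs_nonneg C4
    rcases hv with rfl | rfl <;> rcases hw with rfl | rfl
    · exact (H1 ε hε x hx).trans (hle C1 (by linarith))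
    · exact (H2 ε hε x hx).trans (hle C2 (by linarith))
    · exact (H3 ε hε x hx).trans (hle C3 (by linarith))
    · exact (H4 ε hε x hx).trans (hle C4 (by linarith))
  choose C hC0 hC using h1
  refine ⟨∑ j ∈ Finset.range (s + 1), C j, Finset.sum_nonneg fun j _ => hC0 j,
    fun ε hε x hx j hj v w hv hw => (hC j ε hε x hx v w hv hw).trans ?_⟩
  have h2 : C j ≤ ∑ j ∈ Finset.range (s + 1), C j :=
    Finset.single_le_sum (f := C) (fun i _ => hC0 i) (Finset.mem_range.2 (by omega))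
  have h3 : ε⁻¹ ^ (j + 1) ≤ ε⁻¹ ^ (s + 1) :=
    pow_le_pow_right₀ ((one_le_inv₀ hε.1).2 hε.2.le) (by omega)
  have h4 := hε.1
  have h5 := hC0 j
  have h6 : 0 ≤ ∑ j ∈ Finset.range (s + 1), C j := h5.trans h2
  exact mul_le_mul (mul_le_mul_of_nonneg_right h2 (by positivity)) h3 (by positivity)
    (mul_nonneg h6 (by positivity))

/-- the bound in the chart `κ` -/
theorem XD2_kap (c : Cfg M tf) {K : ℕ} {F : ℝ → E2 → V4} (h : c.IsFam K F) (s : ℕ) :
    ∃ C : ℝ, 0 ≤ C ∧ ∀ ε ∈ Ioo (0 : ℝ) 1, ∀ x ∈ Metric.ball (0 : E2) 3, ∀ j ≤ s,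
      ‖iteratedFDeriv ℝ j (locT c.κ (fun p => c.tgt p - metr (c.gl F ε) p)) x‖ ≤
        C * ε ^ K * ε⁻¹ ^ (s + 1) := by
  obtain ⟨C, hC0, hC⟩ := XD2_bnd c h s
  refine ⟨4 * C, by positivity, fun ε hε x hx j hj => ?_⟩
  have hxt : x ∈ c.κ.target :=
    c.ht (Metric.ball_subset_closedBall (Metric.ball_subset_ball (by norm_num) hx))
  have hs : ContDiffAt ℝ ∞ (locT c.κ (fun p => c.tgt p - metr (c.gl F ε) p)) x :=
    ((XD2_smT c).sub (smT_metr (Cfg.sm_gl h hε)) _ c.hκ).contDiffAt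
      (c.κ.open_target.mem_nhds hxt)
  have h1 := XB3_comp hs (j := j) (B := C * ε ^ K * ε⁻¹ ^ (s + 1)) fun v w hv hw => by
    have h2 : (fun y => locT c.κ (fun p => c.tgt p - metr (c.gl F ε) p) y v w) =ᶠ[𝓝 x]
        -(fun z => ES.gm (F ε) v w z - ES.gm (c.f ∘ c.κ.symm) v w z
          - c.b z ^ 2 * (v.1 * w.1)) := by
      filter_upwards [c.κ.open_target.mem_nhds hxt] with y hy
      exact XD2_eq c h hε hy v w
    rw [(h2.iteratedFDeriv ℝ j).eq_of_nhds, iteratedFDeriv_neg, Pi.neg_apply, norm_neg]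
    exact hC ε hε x hx j hj v w hv hw
  refine h1.trans (le_of_eq ?_)
  ring

/-- off `closedBall 0 (7/4)` the difference vanishes near the point -/
theorem XD2_off (c : Cfg M tf) {K : ℕ} {F : ℝ → E2 → V4} (h : c.IsFam K F) {ε : ℝ}
    (hε : ε ∈ Ioo (0 : ℝ) 1) {p : M}
    (hp : ¬ (p ∈ c.κ.source ∧ c.κ p ∈ Metric.closedBall (0 : E2) (7 / 4))) :
    ∀ᶠ q in 𝓝 p, c.tgt q - metr (c.gl F ε) q = 0 := by
  have hcl : IsClosed (c.κ.symm '' Metric.closedBall (0 : E2) (7 / 4)) := by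
    refine (IsCompact.image_of_continuousOn (isCompact_closedBall _ _) ?_).isClosed
    refine c.κ.continuousOn_symm.mono ?_
    exact (Metric.closedBall_subset_closedBall (by norm_num)).trans c.ht
  have hiff : ∀ q, q ∈ c.κ.symm '' Metric.closedBall (0 : E2) (7 / 4) ↔
      (q ∈ c.κ.source ∧ c.κ q ∈ Metric.closedBall (0 : E2) (7 / 4)) := by
    intro q
    constructor
    · rintro ⟨y, hy, rfl⟩
      have hyt : y ∈ c.κ.target := c.ht (Metric.closedBall_subset_closedBall (by norm_num) hy)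
      exact ⟨c.κ.map_target hyt, by rw [c.κ.right_inv hyt]; exact hy⟩
    · rintro ⟨h1, h2⟩
      exact ⟨c.κ q, h2, c.κ.left_inv h1⟩
  have hpo : p ∈ (c.κ.symm '' Metric.closedBall (0 : E2) (7 / 4))ᶜ := fun h1 => hp ((hiff p).1 h1)
  filter_upwards [hcl.isOpen_compl.mem_nhds hpo] with q hq
  have hq' : ¬ (q ∈ c.κ.source ∧ c.κ q ∈ Metric.closedBall (0 : E2) (7 / 4)) := fun h1 =>
    hq ((hiff q).2 h1)
  have h1 : glob c.κ c.f (F ε) =ᶠ[𝓝 q] c.f := glob_near c.ht (Cfg.off h hε) hq'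
  have h2 : dP (c.gl F ε) q = dP c.f q := by
    unfold dP
    refine Filter.EventuallyEq.fderiv_eq ?_
    have h3 : Filter.Tendsto (chartAt E2 q).symm (𝓝 (chartAt E2 q q)) (𝓝 q) := by
      have h4 := ((chartAt E2 q).continuousAt_symm (mem_chart_target E2 q)).tendsto
      rwa [(chartAt E2 q).left_inv (mem_chart_source E2 q)] at h4
    exact h3.eventually h1
  have h3 : c.a q = 0 := by
    by_contra h4
    obtain ⟨h5, h6⟩ := c.hs q h4
    exact hq' ⟨h5, Metric.closedBall_subset_closedBall (by norm_num) h6⟩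
  unfold Cfg.tgt metr
  rw [h2, h3, zero_pow two_ne_zero]
  refine ContinuousLinearMap.ext fun v => ContinuousLinearMap.ext fun w => ?_
  show (innerSL ℝ).bilinearComp (dP c.f q) (dP c.f q) v w + 0 * sq1 c.κ q v w
    - (innerSL ℝ).bilinearComp (dP c.f q) (dP c.f q) v w = 0
  ring

theorem XD2_metric (c : Cfg M tf) (𝒜 : FinAtlas M) {K : ℕ} {F : ℝ → E2 → V4} (h : c.IsFam K F)
    (s : ℕ) : ∃ C : ℝ, ∀ ε ∈ Ioo (0 : ℝ) 1, ∀ k, ∀ x ∈ Metric.closedBall (0 : E2) 3, ∀ j ≤ s,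
      ‖iteratedFDeriv ℝ j (fun y => locT (𝒜.φ k) c.tgt y - locT (𝒜.φ k) (metr (c.gl F ε)) y) x‖ ≤
        C * ε ^ K * ε⁻¹ ^ (s + 1) := by
  obtain ⟨B, hB0, hB⟩ := XD2_kap c h s
  have h34 : Metric.closedBall (0 : E2) 3 ⊆ Metric.closedBall (0 : E2) 4 :=
    Metric.closedBall_subset_closedBall (by norm_num)
  have h74 : Metric.closedBall (0 : E2) (7 / 4) ⊆ Metric.closedBall (0 : E2) 4 :=
    Metric.closedBall_subset_closedBall (by norm_num)
  have hT := fun k => transfer_ten (𝒜.mem k) c.hκ (isCompact_closedBall (0 : E2) (7 / 4))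
    (h74.trans c.ht) (isCompact_closedBall (0 : E2) 3) (h34.trans (𝒜.target k)) s
  choose D hD0 hD using hT
  refine ⟨(∑ k, D k) * B, fun ε hε k x hx j hj => ?_⟩
  have hDk : D k ≤ ∑ k, D k :=
    Finset.single_le_sum (f := D) (fun i _ => (hD0 i).le) (Finset.mem_univ k)
  have hDs : 0 ≤ ∑ k, D k := (hD0 k).le.trans hDk
  have hε0 := hε.1
  have hsub : (fun y => locT (𝒜.φ k) c.tgt y - locT (𝒜.φ k) (metr (c.gl F ε)) y) =
      locT (𝒜.φ k) (fun p => c.tgt p - metr (c.gl F ε) p) := by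
    funext y
    rw [locT_sub]
  rw [hsub]
  by_cases hp : (𝒜.φ k).symm x ∈ c.κ.source ∧
      c.κ ((𝒜.φ k).symm x) ∈ Metric.closedBall (0 : E2) (7 / 4)
  · have h1 := hD k (fun p => c.tgt p - metr (c.gl F ε) p) (B * ε ^ K * ε⁻¹ ^ (s + 1))
      ((XD2_smT c).sub (smT_metr (Cfg.sm_gl h hε))) (by positivity) x hx hp.1 hp.2
      (fun i hi => hB ε hε _ (Metric.closedBall_subset_ball (by norm_num) hp.2) i hi) j hj
    refine h1.trans ?_
    calc D k * (B * ε ^ K * ε⁻¹ ^ (s + 1)) ≤ (∑ k, D k) * (B * ε ^ K * ε⁻¹ ^ (s + 1)) :=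
          mul_le_mul_of_nonneg_right hDk (by positivity)
      _ = (∑ k, D k) * B * ε ^ K * ε⁻¹ ^ (s + 1) := by ring
  · have hxt : x ∈ (𝒜.φ k).target := 𝒜.target k (h34 hx)
    have h2 : locT (𝒜.φ k) (fun p => c.tgt p - metr (c.gl F ε) p) =ᶠ[𝓝 x]
        (fun _ => (0 : Bil)) := by
      have h3 := ((𝒜.φ k).continuousAt_symm hxt).tendsto.eventually (XD2_off c h hε hp)
      filter_upwards [h3] with y hy
      show (c.tgt ((𝒜.φ k).symm y) - metr (c.gl F ε) ((𝒜.φ k).symm y)).bilinearComp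
        (TTi (𝒜.φ k) y) (TTi (𝒜.φ k) y) = 0
      rw [hy]
      rfl
    rw [(h2.iteratedFDeriv ℝ j).eq_of_nhds, iteratedFDeriv_fun_zero]
    rw [Pi.zero_apply, norm_zero]
    positivity

end P205F
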