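import Mathlib
import Vale.Agent.Lib.P205F.MD3
import Vale.Agent.Lib.P205X.XD2

/-!
# P205X module XD3: lower bound for the metric of the family

`metr f` is positive definite (good directions) and continuous, so `locT (φ k) (metr f) x v v ≥ c₀ ‖v‖²` on the compact
ball; `tgt ≥ metr f`; `XD2_metric` with `s = 0`, `K ≥ 2`.
-/

noncomputable section

namespace P205F

open scoped Manifold ContDiff Topology RealInnerProductSpace
open Set

variable {M : Type} [TopologicalSpace M] [ChartedSpace E2 M] [IsManifold 𝓘(ℝ, E2) ∞ M] [T2Space M]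
  {tf : ℝ → ℝ}

omit [T2Space M] in
/-- a positive definite smooth tensor is bounded below on a compact ball of a chart -/
theorem XD3_low {H : M → Bil} (hH : SmT H) (hp : ∀ p, PosDef (H p))
    {φ : OpenPartialHomeomorph M E2} (hφ : φ ∈ ATL M)
    (ht : Metric.closedBall (0 : E2) 3 ⊆ φ.target) :
    ∃ c0 : ℝ, 0 < c0 ∧ ∀ x ∈ Metric.closedBall (0 : E2) 3, ∀ v : E2,
      c0 * ‖v‖ ^ 2 ≤ locT φ H x v v := by
  have hcont : ContinuousOn (fun q : E2 × E2 => locT φ H q.1 q.2 q.2)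
      (Metric.closedBall (0 : E2) 3 ×ˢ Metric.sphere (0 : E2) 1) := by
    have h1 : ContinuousOn (locT φ H) (Metric.closedBall (0 : E2) 3) :=
      (hH φ hφ).continuousOn.mono ht
    have h2 : ContinuousOn (fun q : E2 × E2 => locT φ H q.1)
        (Metric.closedBall (0 : E2) 3 ×ˢ Metric.sphere (0 : E2) 1) :=
      h1.comp continuousOn_fst (fun q hq => hq.1)
    exact (h2.clm_apply continuousOn_snd).clm_apply continuousOn_snd
  have hK : IsCompact (Metric.closedBall (0 : E2) 3 ×ˢ Metric.sphere (0 : E2) 1) :=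
    (isCompact_closedBall 0 3).prod (isCompact_sphere 0 1)
  have hne : (Metric.closedBall (0 : E2) 3 ×ˢ Metric.sphere (0 : E2) 1).Nonempty := by
    refine ⟨((0 : E2), ((1 : ℝ), (0 : ℝ))), Metric.mem_closedBall_self (by norm_num), ?_⟩
    simp [Prod.norm_def]
  obtain ⟨q0, hq0, hmin⟩ := hK.exists_isMinOn hne hcont
  have hpos : ∀ x ∈ Metric.closedBall (0 : E2) 3, PosDef (locT φ H x) := fun x hx =>
    (posDef_locT hφ (ht hx)).2 (hp _)
  have hq1 : q0.2 ≠ 0 := by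
    intro h0
    have h1 : ‖q0.2‖ = 1 := by simpa using hq0.2
    rw [h0, norm_zero] at h1
    exact zero_ne_one h1
  refine ⟨locT φ H q0.1 q0.2 q0.2, (hpos _ hq0.1).2 _ hq1, fun x hx v => ?_⟩
  rcases eq_or_ne v 0 with rfl | hv
  · simp
  · have hn : ‖v‖ ≠ 0 := norm_ne_zero_iff.2 hv
    have hu : ‖‖v‖⁻¹ • v‖ = 1 := by
      rw [norm_smul, norm_inv, norm_norm, inv_mul_cancel₀ hn]
    have h1 := hmin (show (x, ‖v‖⁻¹ • v) ∈ Metric.closedBall (0 : E2) 3 ×ˢ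
      Metric.sphere (0 : E2) 1 from ⟨hx, by simpa using hu⟩)
    have h2 : locT φ H q0.1 q0.2 q0.2 ≤ locT φ H x (‖v‖⁻¹ • v) (‖v‖⁻¹ • v) := h1
    have h3 : locT φ H x v v = ‖v‖ ^ 2 * locT φ H x (‖v‖⁻¹ • v) (‖v‖⁻¹ • v) := by
      rw [map_smul, map_smul]
      simp only [smul_apply, smul_eq_mul]
      field_simp
    rw [h3, mul_comm]
    exact mul_le_mul_of_nonneg_left h2 (by positivity)

theorem XD3_tgt (c : Cfg M tf) (φ : OpenPartialHomeomorph M E2) (x v : E2) :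
    locT φ (metr c.f) x v v ≤ locT φ c.tgt x v v := by
  have h1 : locT φ c.tgt x v v = locT φ (metr c.f) x v v +
      c.a (φ.symm x) ^ 2 * ((TT c.κ (φ.symm x) (TTi φ x v)).1 *
        (TT c.κ (φ.symm x) (TTi φ x v)).1) := rfl
  rw [h1]
  have h2 : 0 ≤ c.a (φ.symm x) ^ 2 * ((TT c.κ (φ.symm x) (TTi φ x v)).1 *
        (TT c.κ (φ.symm x) (TTi φ x v)).1) :=
    mul_nonneg (sq_nonneg _) (mul_self_nonneg _)
  linarith

theorem XD3_imm (c : Cfg M tf) (𝒜 : FinAtlas M) {K : ℕ} (hK : 2 ≤ K) {F : ℝ → E2 → V4}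
    (h : c.IsFam K F) : ∃ (C ε0 : ℝ), 0 < ε0 ∧ ∀ ε ∈ Ioo (0 : ℝ) 1, ε < ε0 →
      ∀ k, ∀ x ∈ Metric.closedBall (0 : E2) 3, ∀ v : E2,
        ‖v‖ ^ 2 ≤ C * locT (𝒜.φ k) (metr (c.gl F ε)) x v v := by
  have hpos : ∀ p, PosDef (metr c.f p) := by
    intro p
    obtain ⟨v, hv⟩ := c.hgood p
    exact posDef_metr_of_good c.hf (chart_mem_ATL p) (mem_chart_source E2 p) hv
  have hsub : ∀ k, Metric.closedBall (0 : E2) 3 ⊆ (𝒜.φ k).target := fun k =>
    (Metric.closedBall_subset_closedBall (by norm_num)).trans (𝒜.target k)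
  choose d hd hdl using fun k => XD3_low (smT_metr c.hf) hpos (𝒜.mem k) (hsub k)
  obtain ⟨c0, hc0, hle⟩ := MD3_fin_pos d hd
  obtain ⟨C1, hC1⟩ := XD2_metric c 𝒜 h 0
  have hA : 0 ≤ |C1| := abs_nonneg _
  refine ⟨2 / c0, c0 / (2 * (|C1| + 1)), by positivity, fun ε hε hε0 k x hx v => ?_⟩
  have h1 := hC1 ε hε k x hx 0 le_rfl
  rw [norm_iteratedFDeriv_zero, zero_add, pow_one] at h1
  have he : ε ^ K * ε⁻¹ ≤ ε := by
    have h2 : ε ^ K ≤ ε ^ 2 := pow_le_pow_of_le_one hε.1.le hε.2.le hK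
    have h3 : ε ^ K * ε⁻¹ ≤ ε ^ 2 * ε⁻¹ :=
      mul_le_mul_of_nonneg_right h2 (inv_nonneg.2 hε.1.le)
    have h4 : ε ^ 2 * ε⁻¹ = ε := by
      have := hε.1.ne'
      field_simp
    linarith
  have he0 : 0 ≤ ε ^ K * ε⁻¹ := mul_nonneg (pow_nonneg hε.1.le _) (inv_nonneg.2 hε.1.le)
  have h2 : C1 * ε ^ K * ε⁻¹ ≤ |C1| * ε := by
    rw [mul_assoc]
    exact (mul_le_mul_of_nonneg_right (le_abs_self C1) he0).trans
      (mul_le_mul_of_nonneg_left he hA)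
  have h3 : |C1| * ε ≤ c0 / 2 := by
    have h4 : (|C1| + 1) * ε ≤ (|C1| + 1) * (c0 / (2 * (|C1| + 1))) :=
      mul_le_mul_of_nonneg_left hε0.le (by linarith)
    have h5 : (|C1| + 1) * (c0 / (2 * (|C1| + 1))) = c0 / 2 := by
      have : |C1| + 1 ≠ 0 := by positivity
      field_simp
    nlinarith [hε.1]
  set T := locT (𝒜.φ k) c.tgt x - locT (𝒜.φ k) (metr (c.gl F ε)) x with hT
  have h4 : ‖T‖ ≤ c0 / 2 := h1.trans (h2.trans h3)
  have h5 : T v v ≤ c0 / 2 * ‖v‖ ^ 2 := by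
    have h6 := T.le_opNorm₂ v v
    have h7 := le_abs_self (T v v)
    rw [Real.norm_eq_abs] at h6
    have h8 : ‖T‖ * ‖v‖ * ‖v‖ ≤ c0 / 2 * ‖v‖ ^ 2 := by
      rw [mul_assoc, ← sq]
      exact mul_le_mul_of_nonneg_right h4 (by positivity)
    linarith
  have h6 : T v v = locT (𝒜.φ k) c.tgt x v v - locT (𝒜.φ k) (metr (c.gl F ε)) x v v := rfl
  have h7 := XD3_tgt c (𝒜.φ k) x v
  have h8 := hdl k x hx v
  have h9 : c0 * ‖v‖ ^ 2 ≤ d k * ‖v‖ ^ 2 :=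
    mul_le_mul_of_nonneg_right (hle k) (by positivity)
  have h10 : c0 / 2 * ‖v‖ ^ 2 ≤ locT (𝒜.φ k) (metr (c.gl F ε)) x v v := by
    linarith
  calc ‖v‖ ^ 2 = 2 / c0 * (c0 / 2 * ‖v‖ ^ 2) := by field_simp
    _ ≤ 2 / c0 * locT (𝒜.φ k) (metr (c.gl F ε)) x v v :=
        mul_le_mul_of_nonneg_left h10 (by positivity)

end P205F
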