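import Vale.Agent.Lib.P205X.XD4

/-!
# P205X module XD4b: good directions of the family in the charts of the atlas

Where `κ p ∈ closedBall 0 2`: `gramV_comp` (direction `v` = preimage of `e2` under the transition map, normalised; lower
bound of the Jacobian and of the preimage by compactness); elsewhere the family is `f` near `p`: `goodAll_quant`.
-/

noncomputable section

namespace P205F

open scoped Manifold ContDiff Topology RealInnerProductSpace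
open Set

variable {M : Type} [TopologicalSpace M] [ChartedSpace E2 M] [IsManifold 𝓘(ℝ, E2) ∞ M] [T2Space M]
  {tf : ℝ → ℝ}

/-- Jacobian determinant of a linear map of the plane -/
private def XD4b_J (A : E2 →L[ℝ] E2) : ℝ := (A e1).1 * (A e2).2 - (A e1).2 * (A e2).1

private theorem XD4b_J_cont : Continuous XD4b_J := by
  unfold XD4b_J
  fun_prop

private theorem XD4b_inj {A B : E2 →L[ℝ] E2} (h : B.comp A = ContinuousLinearMap.id ℝ E2) :
    ∀ w, A w = 0 → w = 0 := by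
  intro w hw
  have h3 := congrArg (fun L : E2 →L[ℝ] E2 => L w) h
  simp only [ContinuousLinearMap.comp_apply, ContinuousLinearMap.id_apply] at h3
  rw [hw, map_zero] at h3
  exact h3.symm

private theorem XD4b_J_ne {A B : E2 →L[ℝ] E2} (h : B.comp A = ContinuousLinearMap.id ℝ E2) :
    XD4b_J A ≠ 0 := by
  intro h0
  unfold XD4b_J at h0
  have hinj := XD4b_inj h
  have hk1 : A ((A e2).2 • e1 - (A e1).2 • e2) = 0 := by
    rw [map_sub, map_smul, map_smul]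
    ext
    · simp only [Prod.fst_sub, Prod.smul_fst, smul_eq_mul, Prod.fst_zero]
      linarith
    · simp only [Prod.snd_sub, Prod.smul_snd, smul_eq_mul, Prod.snd_zero]
      ring
  have hk2 : A ((A e2).1 • e1 - (A e1).1 • e2) = 0 := by
    rw [map_sub, map_smul, map_smul]
    ext
    · simp only [Prod.fst_sub, Prod.smul_fst, smul_eq_mul, Prod.fst_zero]
      ring
    · simp only [Prod.snd_sub, Prod.smul_snd, smul_eq_mul, Prod.snd_zero]
      linarith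
  have g1 := hinj _ hk1
  have g2 := hinj _ hk2
  have g1a := congrArg Prod.snd g1
  have g2a := congrArg Prod.snd g2
  simp only [e1, e2, Prod.snd_sub, Prod.smul_snd, smul_eq_mul, Prod.snd_zero, mul_zero, mul_one,
    zero_sub, neg_eq_zero] at g1a g2a
  have h5 : A e1 = 0 := by
    ext
    · simpa [e1] using g2a
    · simpa [e1] using g1a
  have h6 := hinj _ h5
  simp [e1] at h6

omit [T2Space M] in
/-- the local statement near a point of the chart `κ` -/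
private theorem XD4b_loc {κ φ : OpenPartialHomeomorph M E2} (hκ : κ ∈ ATL M) (hφ : φ ∈ ATL M)
    {x0 : E2} (hx0 : x0 ∈ φ.target) (h0 : φ.symm x0 ∈ κ.source)
    (h1 : κ (φ.symm x0) ∈ Metric.ball (0 : E2) 2) :
    ∃ a : ℝ, 0 < a ∧ ∀ᶠ x in 𝓝 x0, κ (φ.symm x) ∈ Metric.closedBall (0 : E2) 2 ∧
      ∃ v : E2, ‖v‖ = 1 ∧ ∀ (H : M → V4) (G : E2 → V4), ContDiffOn ℝ ∞ G κ.target →
        (∀ y ∈ κ.target, H (κ.symm y) = G y) →
        0 ≤ gramV G e2 (κ (φ.symm x)) →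
        a * gramV G e2 (κ (φ.symm x)) ≤ gramV (H ∘ φ.symm) v x := by
  set τ : E2 → E2 := κ ∘ φ.symm with hτ
  set σ : E2 → E2 := φ ∘ κ.symm with hσ
  have hO : IsOpen (φ.target ∩ φ.symm ⁻¹' κ.source) := φ.symm.isOpen_inter_preimage κ.open_source
  have hO2 : IsOpen (κ.target ∩ κ.symm ⁻¹' φ.source) := κ.symm.isOpen_inter_preimage φ.open_source
  have hτs : ContDiffOn ℝ ∞ τ (φ.target ∩ φ.symm ⁻¹' κ.source) := ATL_trans hφ hκ
  have hσs : ContDiffOn ℝ ∞ σ (κ.target ∩ κ.symm ⁻¹' φ.source) := ATL_trans hκ hφ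
  have hfd1 : ContinuousOn (fderiv ℝ τ) (φ.target ∩ φ.symm ⁻¹' κ.source) :=
    (hτs.fderiv_of_isOpen (m := ∞) hO (by simp)).continuousOn
  have hfd2 : ContinuousOn (fderiv ℝ σ) (κ.target ∩ κ.symm ⁻¹' φ.source) :=
    (hσs.fderiv_of_isOpen (m := ∞) hO2 (by simp)).continuousOn
  have hmem : x0 ∈ φ.target ∩ φ.symm ⁻¹' κ.source := ⟨hx0, h0⟩
  have hmaps : ∀ x ∈ φ.target ∩ φ.symm ⁻¹' κ.source, τ x ∈ κ.target ∩ κ.symm ⁻¹' φ.source := by
    intro x hx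
    refine ⟨κ.map_source hx.2, ?_⟩
    change κ.symm (κ (φ.symm x)) ∈ φ.source
    rw [κ.left_inv hx.2]
    exact φ.map_target hx.1
  have hτc : ContinuousAt τ x0 := hτs.continuousOn.continuousAt (hO.mem_nhds hmem)
  have hJc : ContinuousAt (fun x => XD4b_J (fderiv ℝ τ x) ^ 2) x0 :=
    ((XD4b_J_cont.continuousAt.comp (hfd1.continuousAt (hO.mem_nhds hmem)))).pow 2
  have hwc : ContinuousAt (fun x => ‖fderiv ℝ σ (τ x) e2‖) x0 := by
    have h2 : ContinuousAt (fderiv ℝ σ) (τ x0) :=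
      hfd2.continuousAt (hO2.mem_nhds (hmaps x0 hmem))
    have h3 : ContinuousAt (fun x => fderiv ℝ σ (τ x)) x0 :=
      ContinuousAt.comp (g := fderiv ℝ σ) (f := τ) h2 hτc
    exact (h3.clm_apply continuousAt_const).norm
  have hJ0 : 0 < XD4b_J (fderiv ℝ τ x0) ^ 2 := by
    have := XD4b_J_ne (trans_inv hφ hκ hx0 h0)
    positivity
  set J0 : ℝ := XD4b_J (fderiv ℝ τ x0) ^ 2 with hJ0d
  set W0 : ℝ := ‖fderiv ℝ σ (τ x0) e2‖ with hW0
  have hW0n : 0 ≤ W0 := norm_nonneg _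
  refine ⟨J0 / 2 * ((W0 + 1) ^ 4)⁻¹, by positivity, ?_⟩
  have ev1 : ∀ᶠ x in 𝓝 x0, J0 / 2 < XD4b_J (fderiv ℝ τ x) ^ 2 :=
    hJc.eventually (lt_mem_nhds (show J0 / 2 < J0 by linarith))
  have ev2 : ∀ᶠ x in 𝓝 x0, ‖fderiv ℝ σ (τ x) e2‖ < W0 + 1 :=
    hwc.eventually (gt_mem_nhds (show W0 < W0 + 1 by linarith))
  have ev3 : ∀ᶠ x in 𝓝 x0, τ x ∈ Metric.ball (0 : E2) 2 :=
    hτc.eventually (Metric.isOpen_ball.mem_nhds h1)
  filter_upwards [ev1, ev2, ev3, hO.mem_nhds hmem] with x e1' e2' e3' e4'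
  refine ⟨Metric.ball_subset_closedBall e3', ?_⟩
  set w : E2 := fderiv ℝ σ (τ x) e2 with hw
  -- the derivative of `τ` maps `w` to `e2`
  have hm2 := hmaps x e4'
  have hAw : fderiv ℝ τ x w = e2 := by
    have h2 := trans_inv (φ := κ) (ψ := φ) hκ hφ (x := τ x) hm2.1 hm2.2
    have h3 : φ (κ.symm (τ x)) = x := by
      change φ (κ.symm (κ (φ.symm x))) = x
      rw [κ.left_inv e4'.2, φ.right_inv e4'.1]
    rw [h3] at h2
    have h4 := congrArg (fun L : E2 →L[ℝ] E2 => L e2) h2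
    simpa only [ContinuousLinearMap.comp_apply, ContinuousLinearMap.id_apply] using h4
  have hw0 : w ≠ 0 := by
    intro h2
    rw [h2, map_zero] at hAw
    have := congrArg Prod.snd hAw
    simp [e2] at this
  have hn : 0 < ‖w‖ := norm_pos_iff.2 hw0
  refine ⟨‖w‖⁻¹ • w, ?_, ?_⟩
  · rw [norm_smul, norm_inv, norm_norm, inv_mul_cancel₀ hn.ne']
  · intro H G hG hHG hpos
    have hev : (H ∘ φ.symm) =ᶠ[𝓝 x] G ∘ τ := by
      filter_upwards [hO.mem_nhds e4'] with y hy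
      have h2 := hHG (κ (φ.symm y)) (κ.map_source hy.2)
      rw [κ.left_inv hy.2] at h2
      exact h2
    have hG2 : ContDiffAt ℝ 2 G (τ x) := MD3_at κ.open_target hG hm2.1
    have hτ2 : ContDiffAt ℝ 2 τ x :=
      (hτs.contDiffAt (hO.mem_nhds e4')).of_le ENat.LEInfty.out
    rw [MD2_gramV_congr hev, gramV_comp hG2 hτ2, map_smul, hAw, gramV_smul]
    change J0 / 2 * ((W0 + 1) ^ 4)⁻¹ * gramV G e2 (τ x) ≤
      XD4b_J (fderiv ℝ τ x) ^ 2 * (‖w‖⁻¹ ^ 4 * gramV G e2 (τ x))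
    have hinv : ((W0 + 1) ^ 4)⁻¹ ≤ ‖w‖⁻¹ ^ 4 := by
      rw [inv_pow]
      exact inv_anti₀ (by positivity) (pow_le_pow_left₀ hn.le e2'.le 4)
    have hmul : J0 / 2 * ((W0 + 1) ^ 4)⁻¹ ≤ XD4b_J (fderiv ℝ τ x) ^ 2 * ‖w‖⁻¹ ^ 4 :=
      mul_le_mul e1'.le hinv (by positivity) (by positivity)
    calc J0 / 2 * ((W0 + 1) ^ 4)⁻¹ * gramV G e2 (τ x)
        ≤ XD4b_J (fderiv ℝ τ x) ^ 2 * ‖w‖⁻¹ ^ 4 * gramV G e2 (τ x) :=
          mul_le_mul_of_nonneg_right hmul hpos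
      _ = _ := by ring

theorem XD4_good [CompactSpace M] (c : Cfg M tf) (𝒜 : FinAtlas M) {K : ℕ} {F : ℝ → E2 → V4}
    (h : c.IsFam K F) :
    ∃ (C ε0 : ℝ), 0 < ε0 ∧ ∀ ε ∈ Ioo (0 : ℝ) 1, ε < ε0 → ∀ k, ∀ x ∈ Metric.closedBall (0 : E2) 3,
      ∃ v : E2, ‖v‖ = 1 ∧ 1 ≤ C * gramV (c.gl F ε ∘ (𝒜.φ k).symm) v x := by
  obtain ⟨c0, ε0, hc0, hε0, hch⟩ := XD4_good_chart c h
  obtain ⟨c1, hc1, hq⟩ := goodAll_quant 𝒜 c.hf c.hgood
  -- the closed set of the surface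
  have hsub74 : Metric.closedBall (0 : E2) (7 / 4) ⊆ c.κ.target :=
    (Metric.closedBall_subset_closedBall (by norm_num)).trans c.ht
  have hcl : IsClosed (c.κ.symm '' Metric.closedBall (0 : E2) (7 / 4)) :=
    ((isCompact_closedBall (0 : E2) (7 / 4)).image_of_continuousOn
      (c.κ.continuousOn_symm.mono hsub74)).isClosed
  have hiff : ∀ p : M, p ∈ c.κ.symm '' Metric.closedBall (0 : E2) (7 / 4) ↔
      (p ∈ c.κ.source ∧ c.κ p ∈ Metric.closedBall (0 : E2) (7 / 4)) := by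
    intro p
    constructor
    · rintro ⟨y, hy, rfl⟩
      refine ⟨c.κ.map_target (hsub74 hy), ?_⟩
      rw [c.κ.right_inv (hsub74 hy)]
      exact hy
    · rintro ⟨hp, hp2⟩
      exact ⟨c.κ p, hp2, c.κ.left_inv hp⟩
  have key : ∀ k : Fin 𝒜.n, ∃ a : ℝ, 0 < a ∧ ∀ x ∈ Metric.closedBall (0 : E2) 3,
      ∀ ε ∈ Ioo (0 : ℝ) 1, ε < ε0 → ∃ v : E2, ‖v‖ = 1 ∧ a ≤ gramV (c.gl F ε ∘ (𝒜.φ k).symm) v x := by
    intro k
    have hsub : Metric.closedBall (0 : E2) 3 ⊆ (𝒜.φ k).target :=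
      (Metric.closedBall_subset_closedBall (by norm_num)).trans (𝒜.target k)
    have hat : ∀ x ∈ Metric.closedBall (0 : E2) 3,
        (𝒜.φ k).symm x ∉ c.κ.symm '' Metric.closedBall (0 : E2) (7 / 4) →
        ∀ ε ∈ Ioo (0 : ℝ) 1, ∃ v : E2, ‖v‖ = 1 ∧ c1 ≤ gramV (c.gl F ε ∘ (𝒜.φ k).symm) v x := by
      intro x hx hnx ε hε
      obtain ⟨v, hv, hvc⟩ := hq k x hx
      refine ⟨v, hv, ?_⟩
      rw [hiff] at hnx
      have h1 : c.gl F ε =ᶠ[𝓝 ((𝒜.φ k).symm x)] c.f := glob_near c.ht (Cfg.off h hε) hnx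
      have h2 : ContinuousAt (𝒜.φ k).symm x :=
        (𝒜.φ k).continuousAt_symm (hsub hx)
      have h3 : (c.gl F ε ∘ (𝒜.φ k).symm) =ᶠ[𝓝 x] c.f ∘ (𝒜.φ k).symm := h2.eventually h1
      rw [MD2_gramV_congr h3]
      exact hvc
    refine (isCompact_closedBall (0 : E2) 3).induction_on
      (p := fun s => ∃ a : ℝ, 0 < a ∧ ∀ x ∈ s, x ∈ Metric.closedBall (0 : E2) 3 →
        ∀ ε ∈ Ioo (0 : ℝ) 1, ε < ε0 →
          ∃ v : E2, ‖v‖ = 1 ∧ a ≤ gramV (c.gl F ε ∘ (𝒜.φ k).symm) v x) ?_ ?_ ?_ ?_ |>.imp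
        fun a ha => ⟨ha.1, fun x hx => ha.2 x hx hx⟩
    · exact ⟨1, one_pos, fun x hx => absurd hx (notMem_empty x)⟩
    · rintro s t hst ⟨a, ha, hh⟩
      exact ⟨a, ha, fun x hx => hh x (hst hx)⟩
    · rintro s t ⟨a, ha, hh⟩ ⟨a', ha', hh'⟩
      refine ⟨min a a', lt_min ha ha', fun x hx hx3 ε hε hεε => ?_⟩
      rcases hx with hx | hx
      · obtain ⟨v, hv, hvc⟩ := hh x hx hx3 ε hε hεε
        exact ⟨v, hv, (min_le_left _ _).trans hvc⟩
      · obtain ⟨v, hv, hvc⟩ := hh' x hx hx3 ε hε hεε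
        exact ⟨v, hv, (min_le_right _ _).trans hvc⟩
    · intro x0 hx0
      by_cases hp : (𝒜.φ k).symm x0 ∈ c.κ.symm '' Metric.closedBall (0 : E2) (7 / 4)
      · obtain ⟨hp1, hp2⟩ := (hiff _).1 hp
        have hp3 : c.κ ((𝒜.φ k).symm x0) ∈ Metric.ball (0 : E2) 2 :=
          Metric.closedBall_subset_ball (by norm_num) hp2
        obtain ⟨a, ha, hev⟩ := XD4b_loc c.hκ (𝒜.mem k) (hsub hx0) hp1 hp3
        refine ⟨_, mem_nhdsWithin_of_mem_nhds hev, a * c0, by positivity, ?_⟩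
        intro x hx hx3 ε hε hεε
        obtain ⟨hx2, v, hv, hvG⟩ := hx
        have hlow := hch ε hε hεε _ hx2
        refine ⟨v, hv, ?_⟩
        have h5 := hvG (c.gl F ε) (F ε) (h.smooth ε hε)
          (fun y hy => glob_chart c.κ c.f (F ε) hy) (hc0.le.trans hlow)
        exact (mul_le_mul_of_nonneg_left hlow ha.le).trans h5
      · have hcont : ContinuousAt (𝒜.φ k).symm x0 := (𝒜.φ k).continuousAt_symm (hsub hx0)
        have hev : ∀ᶠ x in 𝓝 x0,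
            (𝒜.φ k).symm x ∈ (c.κ.symm '' Metric.closedBall (0 : E2) (7 / 4))ᶜ :=
          hcont.eventually (hcl.isOpen_compl.mem_nhds hp)
        refine ⟨_, mem_nhdsWithin_of_mem_nhds hev, c1, hc1, ?_⟩
        intro x hx hx3 ε hε _
        exact hat x hx3 hx ε hε
  choose a ha hab using key
  obtain ⟨a0, ha0, hle⟩ := MD3_fin_pos a ha
  refine ⟨a0⁻¹, ε0, hε0, fun ε hε hεε k x hx => ?_⟩
  obtain ⟨v, hv, hvc⟩ := hab k x hx ε hε hεε
  refine ⟨v, hv, ?_⟩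
  have h1 : a0 ≤ gramV (c.gl F ε ∘ (𝒜.φ k).symm) v x := (hle k).trans hvc
  calc (1 : ℝ) = a0⁻¹ * a0 := (inv_mul_cancel₀ ha0.ne').symm
    _ ≤ a0⁻¹ * gramV (c.gl F ε ∘ (𝒜.φ k).symm) v x :=
      mul_le_mul_of_nonneg_left h1 (inv_nonneg.2 ha0.le)

end P205F
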