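import Vale.Agent.Lib.P205X.XC

/-!
# P205X module XC2: uniqueness of the unit normal, change from `G0` to `F0`
-/

noncomputable section

namespace P205F

open scoped ContDiff Topology RealInnerProductSpace
open Set

/-- the unit normal is unique up to sign -/
theorem nor_unique {y u₁ u₂ u₃ : V4} (h : 0 < gram3 u₁ u₂ u₃) (hy : ‖y‖ = 1) (h1 : ⟪u₁, y⟫ = 0)
    (h2 : ⟪u₂, y⟫ = 0) (h3 : ⟪u₃, y⟫ = 0) : y = nor u₁ u₂ u₃ ∨ y = -nor u₁ u₂ u₃ := by
  have hl := (gram3_pos_iff u₁ u₂ u₃).1 h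
  set S : Submodule ℝ V4 := Submodule.span ℝ (Set.range ![u₁, u₂, u₃]) with hS
  have hd : Module.finrank ℝ S = 3 := by
    rw [hS, finrank_span_eq_card hl, Fintype.card_fin]
  have hd1 : Module.finrank ℝ Sᗮ = 1 := by
    have h4 := S.finrank_add_finrank_orthogonal
    rw [hd, finrank_euclideanSpace_fin] at h4
    omega
  have key : ∀ w : V4, ⟪u₁, w⟫ = 0 → ⟪u₂, w⟫ = 0 → ⟪u₃, w⟫ = 0 → w ∈ Sᗮ := by
    intro w e1 e2 e3
    rw [hS, Submodule.mem_orthogonal]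
    intro v hv
    induction hv using Submodule.span_induction with
    | mem v hv =>
      obtain ⟨i, rfl⟩ := hv
      fin_cases i
      · exact e1
      · exact e2
      · exact e3
    | zero => exact inner_zero_left _
    | add v v' _ _ e e' => rw [inner_add_left, e, e', add_zero]
    | smul t v _ e => rw [real_inner_smul_left, e, mul_zero]
  have hn1 : ⟪nor u₁ u₂ u₃, nor u₁ u₂ u₃⟫ = 1 := inner_nor_self u₁ u₂ u₃ h
  have hnn : ‖nor u₁ u₂ u₃‖ = 1 := by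
    have h5 : ‖nor u₁ u₂ u₃‖ * ‖nor u₁ u₂ u₃‖ = 1 := by
      rw [← real_inner_self_eq_norm_mul_norm, hn1]
    nlinarith [norm_nonneg (nor u₁ u₂ u₃)]
  have hnS : nor u₁ u₂ u₃ ∈ Sᗮ := key _ (by rw [real_inner_comm]; exact inner_nor_fst _ _ _)
    (by rw [real_inner_comm]; exact inner_nor_snd _ _ _)
    (by rw [real_inner_comm]; exact inner_nor_thd _ _ _)
  have hyS : y ∈ Sᗮ := key y h1 h2 h3
  have hne : (⟨nor u₁ u₂ u₃, hnS⟩ : Sᗮ) ≠ 0 := by
    intro h0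
    have h6 : nor u₁ u₂ u₃ = 0 := congrArg Subtype.val h0
    rw [h6, norm_zero] at hnn
    exact zero_ne_one hnn
  obtain ⟨t, ht⟩ := (finrank_eq_one_iff_of_nonzero' (⟨nor u₁ u₂ u₃, hnS⟩ : Sᗮ) hne).1 hd1
    ⟨y, hyS⟩
  have ht' : t • nor u₁ u₂ u₃ = y := congrArg Subtype.val ht
  have habs : |t| = 1 := by
    have h7 : ‖t • nor u₁ u₂ u₃‖ = 1 := by rw [ht', hy]
    rwa [norm_smul, hnn, mul_one, Real.norm_eq_abs] at h7
  rcases (abs_eq zero_le_one).1 habs with h8 | h8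
  · left
    rw [← ht', h8, one_smul]
  · right
    rw [← ht', h8, neg_smul, one_smul]

/-- continuity of the inner product with the cross product -/
theorem XC2_cont {O : Set E2} {u₁ u₂ u₃ y : E2 → V4}
    (c1 : ContinuousOn u₁ O) (c2 : ContinuousOn u₂ O) (c3 : ContinuousOn u₃ O)
    (cy : ContinuousOn y O) :
    ContinuousOn (fun z => (inner ℝ (y z) (cr3 (u₁ z) (u₂ z) (u₃ z)) : ℝ)) O := by
  have p : ∀ {u : E2 → V4}, ContinuousOn u O → ∀ i : Fin 4, ContinuousOn (fun z => u z i) O :=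
    fun hu i => (EuclideanSpace.proj (𝕜 := ℝ) i).continuous.comp_continuousOn hu
  have m : ∀ i j k : Fin 4, ContinuousOn (fun z => minor3 (u₁ z) (u₂ z) (u₃ z) i j k) O := by
    intro i j k
    unfold minor3
    exact ((((p c1 i).mul (((p c2 j).mul (p c3 k)).sub ((p c2 k).mul (p c3 j)))).sub
      ((p c1 j).mul (((p c2 i).mul (p c3 k)).sub ((p c2 k).mul (p c3 i))))).add
      ((p c1 k).mul (((p c2 i).mul (p c3 j)).sub ((p c2 j).mul (p c3 i)))))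
  simp only [TA_inner, TA_cr3_0, TA_cr3_1, TA_cr3_2, TA_cr3_3]
  exact ((((p cy 0).mul (m _ _ _)).add ((p cy 1).mul (m _ _ _).neg)).add
    ((p cy 2).mul (m _ _ _))).add ((p cy 3).mul (m _ _ _).neg)

theorem XC2_sign {u₁ u₂ u₃ : V4} (h : 0 < gram3 u₁ u₂ u₃) :
    0 < (inner ℝ (nor u₁ u₂ u₃) (cr3 u₁ u₂ u₃) : ℝ) := by
  unfold nor
  rw [real_inner_smul_left, inner_cr3_self]
  have := Real.sqrt_pos.2 h
  positivity

/-- change from `G0` with the normal field `y` to `F0`, near a point: `y = ± nor` with a locally constant sign -/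
theorem first_conv (tf : ℝ → ℝ) {O : Set E2} (hO : IsOpen O) {u₁ u₂ u₃ y : E2 → V4} (α : E2 → ℝ)
    (c1 : ContinuousOn u₁ O) (c2 : ContinuousOn u₂ O) (c3 : ContinuousOn u₃ O)
    (cy : ContinuousOn y O) (hg : ∀ x ∈ O, 0 < gram3 (u₁ x) (u₂ x) (u₃ x))
    (hy : ∀ x ∈ O, ‖y x‖ = 1 ∧ ⟪u₁ x, y x⟫ = 0 ∧ ⟪u₂ x, y x⟫ = 0 ∧ ⟪u₃ x, y x⟫ = 0) {x : E2}
    (hx : x ∈ O) {c : ℝ} (hc : c ∈ Icc (-1 : ℝ) 1) : ∃ c' ∈ Icc (-1 : ℝ) 1,
      (fun z => ES.G0 tf (y z) (u₁ z) (u₂ z) (u₃ z) (α z) c) =ᶠ[𝓝 x]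
        fun z => F0 tf (u₁ z) (u₂ z) (u₃ z) (α z) c' := by
  have hcont := (XC2_cont c1 c2 c3 cy).continuousAt (hO.mem_nhds hx)
  have huniq : ∀ z ∈ O, y z = nor (u₁ z) (u₂ z) (u₃ z) ∨ y z = -nor (u₁ z) (u₂ z) (u₃ z) :=
    fun z hz => nor_unique (hg z hz) (hy z hz).1 (hy z hz).2.1 (hy z hz).2.2.1 (hy z hz).2.2.2
  rcases huniq x hx with h | h
  · refine ⟨c, hc, ?_⟩
    have h1 : 0 < (inner ℝ (y x) (cr3 (u₁ x) (u₂ x) (u₃ x)) : ℝ) := by
      rw [h]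
      exact XC2_sign (hg x hx)
    filter_upwards [hcont.eventually (lt_mem_nhds h1), hO.mem_nhds hx] with z hz hzO
    rcases huniq z hzO with h2 | h2
    · rw [h2, F0_eq_G0]
    · exfalso
      have h3 := XC2_sign (hg z hzO)
      rw [h2, inner_neg_left] at hz
      linarith
  · refine ⟨-c, ⟨by linarith [hc.2], by linarith [hc.1]⟩, ?_⟩
    have h1 : (inner ℝ (y x) (cr3 (u₁ x) (u₂ x) (u₃ x)) : ℝ) < 0 := by
      rw [h, inner_neg_left]
      exact neg_neg_of_pos (XC2_sign (hg x hx))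
    filter_upwards [hcont.eventually (gt_mem_nhds h1), hO.mem_nhds hx] with z hz hzO
    rcases huniq z hzO with h2 | h2
    · exfalso
      have h3 := XC2_sign (hg z hzO)
      rw [h2] at hz
      linarith
    · rw [h2, F0_eq_G0, G0_neg]

end P205F
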