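import Vale.Agent.Lib.P205F.MD1

/-!
# P205X module XB1: gluing a map of a chart into a map of the surface
-/

set_option maxSynthPendingDepth 3

noncomputable section

namespace P205F

open scoped Manifold ContDiff Topology
open Set

variable {M : Type} [TopologicalSpace M] [ChartedSpace E2 M]

open Classical in
/-- `F ∘ κ` on the source of `κ`, `f` elsewhere -/
def glob (κ : OpenPartialHomeomorph M E2) (f : M → V4) (F : E2 → V4) (p : M) : V4 :=
  if p ∈ κ.source then F (κ p) else f p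

theorem glob_chart (κ : OpenPartialHomeomorph M E2) (f : M → V4) (F : E2 → V4) {x : E2}
    (hx : x ∈ κ.target) : glob κ f F (κ.symm x) = F x := by
  unfold glob
  rw [if_pos (κ.map_target hx), κ.right_inv hx]

variable {κ : OpenPartialHomeomorph M E2} {f : M → V4} {F : E2 → V4}

theorem glob_off (hoff : ∀ x ∈ κ.target, x ∉ Metric.closedBall (0 : E2) (7 / 4) → F x = f (κ.symm x))
    {p : M} (hp : ¬ (p ∈ κ.source ∧ κ p ∈ Metric.closedBall (0 : E2) (7 / 4))) :
    glob κ f F p = f p := by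
  unfold glob
  by_cases h : p ∈ κ.source
  · rw [if_pos h, hoff (κ p) (κ.map_source h) (fun h' => hp ⟨h, h'⟩), κ.left_inv h]
  · rw [if_neg h]

variable [IsManifold 𝓘(ℝ, E2) ∞ M] [T2Space M]

omit [IsManifold 𝓘(ℝ, E2) ∞ M] in
/-- the complement of the image of a small closed ball is a neighbourhood of its points -/
theorem XB1_nhd (ht : Metric.closedBall (0 : E2) 4 ⊆ κ.target) {r : ℝ} (hr : r ≤ 4)
    {p : M} (hp : ¬ (p ∈ κ.source ∧ κ p ∈ Metric.closedBall (0 : E2) r)) :
    ∀ᶠ q in 𝓝 p, ¬ (q ∈ κ.source ∧ κ q ∈ Metric.closedBall (0 : E2) r) := by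
  have hsub : Metric.closedBall (0 : E2) r ⊆ κ.target :=
    (Metric.closedBall_subset_closedBall hr).trans ht
  have hK : IsCompact (κ.symm '' Metric.closedBall (0 : E2) r) :=
    (isCompact_closedBall (0 : E2) r).image_of_continuousOn
      (κ.continuousOn_symm.mono hsub)
  have hiff : ∀ q : M, q ∈ κ.symm '' Metric.closedBall (0 : E2) r ↔
      (q ∈ κ.source ∧ κ q ∈ Metric.closedBall (0 : E2) r) := by
    intro q
    constructor
    · rintro ⟨x, hx, rfl⟩
      refine ⟨κ.map_target (hsub hx), ?_⟩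
      rw [κ.right_inv (hsub hx)]
      exact hx
    · rintro ⟨h1, h2⟩
      exact ⟨κ q, h2, κ.left_inv h1⟩
  have hp' : p ∉ κ.symm '' Metric.closedBall (0 : E2) r := fun h => hp ((hiff p).1 h)
  filter_upwards [hK.isClosed.isOpen_compl.mem_nhds hp'] with q hq
  exact fun h => hq ((hiff q).2 h)

theorem sm_glob (hκ : κ ∈ ATL M) (ht : Metric.closedBall (0 : E2) 4 ⊆ κ.target) (hf : Sm f)
    (hF : ContDiffOn ℝ ∞ F κ.target)
    (hoff : ∀ x ∈ κ.target, x ∉ Metric.closedBall (0 : E2) (7 / 4) → F x = f (κ.symm x)) :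
    Sm (glob κ f F) := by
  refine sm_of_loc fun p => ?_
  by_cases hp : p ∈ κ.source
  · refine ⟨κ, hκ, hp, ?_⟩
    have hn := κ.open_target.mem_nhds (κ.map_source hp)
    refine (hF.contDiffAt hn).congr_of_eventuallyEq ?_
    filter_upwards [hn] with y hy
    exact glob_chart κ f F hy
  · have hp' : ¬ (p ∈ κ.source ∧ κ p ∈ Metric.closedBall (0 : E2) (7 / 4)) := fun h => hp h.1
    have hc : p ∈ (chartAt E2 p).source := mem_chart_source E2 p
    refine ⟨chartAt E2 p, chart_mem_ATL p, hc, ?_⟩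
    have hn := (chartAt E2 p).open_target.mem_nhds ((chartAt E2 p).map_source hc)
    refine ((hf.loc (chart_mem_ATL p)).contDiffAt hn).congr_of_eventuallyEq ?_
    have h1 : ∀ᶠ q in 𝓝 p, ¬ (q ∈ κ.source ∧ κ q ∈ Metric.closedBall (0 : E2) (7 / 4)) :=
      XB1_nhd ht (by norm_num) hp'
    have h2 : Filter.Tendsto (chartAt E2 p).symm (𝓝 (chartAt E2 p p)) (𝓝 p) := by
      have := (chartAt E2 p).continuousAt_symm ((chartAt E2 p).map_source hc)
      have h3 : Filter.Tendsto (chartAt E2 p).symm (𝓝 (chartAt E2 p p))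
        (𝓝 ((chartAt E2 p).symm (chartAt E2 p p))) := this
      rwa [(chartAt E2 p).left_inv hc] at h3
    filter_upwards [h2.eventually h1] with y hy
    exact glob_off hoff hy

/-- `κ.symm '' closedBall 0 (7/4)` is compact, hence closed -/
theorem glob_near (ht : Metric.closedBall (0 : E2) 4 ⊆ κ.target)
    (hoff : ∀ x ∈ κ.target, x ∉ Metric.closedBall (0 : E2) (7 / 4) → F x = f (κ.symm x))
    {p : M} (hp : ¬ (p ∈ κ.source ∧ κ p ∈ Metric.closedBall (0 : E2) (7 / 4))) :
    glob κ f F =ᶠ[𝓝 p] f := by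
  filter_upwards [XB1_nhd ht (by norm_num) hp] with q hq
  exact glob_off hoff hq

/-- the tensor `a² dφ₁²` is smooth -/
theorem smT_sq1 (hκ : κ ∈ ATL M) (ht : Metric.closedBall (0 : E2) 4 ⊆ κ.target) {a : M → ℝ}
    (ha : Sm a) (hs : ∀ p, a p ≠ 0 → p ∈ κ.source ∧ κ p ∈ Metric.closedBall (0 : E2) 1) :
    SmT (fun p => a p ^ 2 • sq1 κ p) := by
  refine smT_of_loc fun p => ?_
  by_cases hp : p ∈ κ.source
  · refine ⟨κ, hκ, hp, ?_⟩
    have hn := κ.open_target.mem_nhds (κ.map_source hp)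
    have h1 : ContDiffAt ℝ ∞ (fun y => ((a ∘ κ.symm) y) ^ 2 •
        sqC (ContinuousLinearMap.fst ℝ ℝ ℝ)) (κ p) :=
      ContDiffAt.smul (((ha.loc hκ).contDiffAt hn).pow 2) contDiffAt_const
    refine h1.congr_of_eventuallyEq ?_
    filter_upwards [hn] with y hy
    rw [← locT_sq1_self hκ hy]
    rfl
  · have hp' : ¬ (p ∈ κ.source ∧ κ p ∈ Metric.closedBall (0 : E2) 1) := fun h => hp h.1
    have hc : p ∈ (chartAt E2 p).source := mem_chart_source E2 p
    refine ⟨chartAt E2 p, chart_mem_ATL p, hc, ?_⟩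
    have h1 : ∀ᶠ q in 𝓝 p, ¬ (q ∈ κ.source ∧ κ q ∈ Metric.closedBall (0 : E2) 1) :=
      XB1_nhd ht (by norm_num) hp'
    have h2 : Filter.Tendsto (chartAt E2 p).symm (𝓝 (chartAt E2 p p)) (𝓝 p) := by
      have := (chartAt E2 p).continuousAt_symm ((chartAt E2 p).map_source hc)
      have h3 : Filter.Tendsto (chartAt E2 p).symm (𝓝 (chartAt E2 p p))
        (𝓝 ((chartAt E2 p).symm (chartAt E2 p p))) := this
      rwa [(chartAt E2 p).left_inv hc] at h3
    have h0 : ContDiffAt ℝ ∞ (fun _ : E2 => (0 : Bil)) (chartAt E2 p p) := contDiffAt_const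
    refine h0.congr_of_eventuallyEq ?_
    filter_upwards [h2.eventually h1] with y hy
    have ha0 : a ((chartAt E2 p).symm y) = 0 := by
      by_contra h
      exact hy (hs _ h)
    refine ContinuousLinearMap.ext fun v => ContinuousLinearMap.ext fun w => ?_
    simp [locT, ha0]

end P205F
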