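import Mathlib
import Vale.Agent.Lib.P205E.EStmt
import Vale.Agent.Lib.P205X.XB1

/-!
# P205X: the configuration of the exact stage on a surface
-/

noncomputable section

namespace P205F

open scoped Manifold ContDiff Topology RealInnerProductSpace
open Set

/-- data of the exact stage on `M`: map `f`, chart `κ`, amplitude `a` (`b` in the chart), unit normal `y` -/
structure Cfg (M : Type) [TopologicalSpace M] [ChartedSpace E2 M] (tf : ℝ → ℝ) where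
  f : M → V4
  κ : OpenPartialHomeomorph M E2
  a : M → ℝ
  b : E2 → ℝ
  y : E2 → V4
  O' : Set E2
  htf : ContDiff ℝ ∞ tf
  tf0 : tf 0 = 0
  hf : Sm f
  hgood : GoodAll f
  hκ : κ ∈ ATL M
  ht : Metric.closedBall (0 : E2) 4 ⊆ κ.target
  ha : Sm a
  hs : ∀ p, a p ≠ 0 → p ∈ κ.source ∧ κ p ∈ Metric.closedBall (0 : E2) 1
  hg : ∀ x ∈ Metric.closedBall (0 : E2) 3, GoodIn κ f e2 x
  hbs : ContDiff ℝ ∞ b
  hb : ∀ x ∈ κ.target, b x = a (κ.symm x)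
  hb1 : ∀ x, b x ≠ 0 → x ∈ Metric.closedBall (0 : E2) 1
  hO' : IsOpen O'
  hOs : Metric.closedBall (0 : E2) 3 ⊆ O'
  hOt : O' ⊆ κ.target
  hys : ContDiffOn ℝ ∞ y O'
  hy : ∀ x ∈ O', ‖y x‖ = 1 ∧ ⟪ES.d1 (f ∘ κ.symm) x, y x⟫ = 0 ∧ ⟪ES.d2 (f ∘ κ.symm) x, y x⟫ = 0 ∧
    ⟪ES.d2 (ES.d2 (f ∘ κ.symm)) x, y x⟫ = 0

variable {M : Type} [TopologicalSpace M] [ChartedSpace E2 M] {tf : ℝ → ℝ}

/-- the family in the chart -/
def Cfg.IsFam (c : Cfg M tf) (K : ℕ) (F : ℝ → E2 → V4) : Prop :=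
  ES.Fam tf (c.f ∘ c.κ.symm) c.κ.target c.b c.y K F

/-- the family on the surface -/
def Cfg.gl (c : Cfg M tf) (F : ℝ → E2 → V4) (ε : ℝ) : M → V4 := glob c.κ c.f (F ε)

/-- the target metric -/
def Cfg.tgt (c : Cfg M tf) (p : M) : Bil := metr c.f p + c.a p ^ 2 • sq1 c.κ p

theorem Cfg.off {c : Cfg M tf} {K : ℕ} {F : ℝ → E2 → V4} (h : c.IsFam K F) {ε : ℝ}
    (hε : ε ∈ Ioo (0 : ℝ) 1) : ∀ x ∈ c.κ.target, x ∉ Metric.closedBall (0 : E2) (7 / 4) →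
      F ε x = c.f (c.κ.symm x) := fun x _ hx => h.off ε hε x hx

theorem Cfg.sm_gl [IsManifold 𝓘(ℝ, E2) ∞ M] [T2Space M] {c : Cfg M tf} {K : ℕ} {F : ℝ → E2 → V4}
    (h : c.IsFam K F) {ε : ℝ} (hε : ε ∈ Ioo (0 : ℝ) 1) : Sm (c.gl F ε) :=
  sm_glob c.hκ c.ht c.hf (h.smooth ε hε) (Cfg.off h hε)

end P205F
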