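import Mathlib
import Vale.Agent.Lib.P205F.MD3
import Vale.Agent.Lib.P205X.XC2
import Vale.Agent.Lib.P205X.XDefs

/-!
# P205X module XD5: conclusions for a map `F'` close to the family

`XD5_chart`: derivatives of `F' ∘ κ.symm` are close to those of `F ε` by `clAt_chart` (`K = closedBall 0 3`); for `x` in the
open ball `0 3` use the fields `close`, `first` of `Fam` and `first_conv`; for `‖x‖ > 7/4` the family is `f` near `x` and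
`a = 0` near `x`, `G0 .. 0 c = d1 f` (`G0_zero`).
-/

noncomputable section

namespace P205F

open scoped Manifold ContDiff Topology RealInnerProductSpace
open Set

variable {M : Type} [TopologicalSpace M] [ChartedSpace E2 M] [IsManifold 𝓘(ℝ, E2) ∞ M] [T2Space M]
  {tf : ℝ → ℝ}

theorem XD5_pd0 (u : E2 → V4) : pd 0 u = ES.d1 u := by
  funext x
  unfold pd ES.d1 bv
  rw [if_pos rfl]

theorem XD5_pd1 (u : E2 → V4) : pd 1 u = ES.d2 u := by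
  funext x
  unfold pd ES.d2 bv
  rw [if_neg (by decide)]

theorem XD5_on {w : E2 → V4} {O : Set E2} (hO : IsOpen O) (hw : ContDiffOn ℝ ∞ w O) (i : Fin 2) :
    ContDiffOn ℝ ∞ (pd i w) O :=
  (hw.fderiv_of_isOpen hO (by simp)).clm_apply contDiffOn_const

theorem XD5_sub {u w D : E2 → V4} {O : Set E2} (hO : IsOpen O) (hu : ContDiffOn ℝ ∞ u O)
    (hw : ContDiffOn ℝ ∞ w O) (h : EqOn D (fun x => u x - w x) O) (i : Fin 2) :
    EqOn (pd i D) (fun x => pd i u x - pd i w x) O := by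
  intro x hx
  have hn := hO.mem_nhds hx
  have h1 : D =ᶠ[𝓝 x] (u - w) := h.eventuallyEq_of_mem hn
  unfold pd
  beta_reduce
  rw [h1.fderiv_eq, fderiv_sub ((hu.contDiffAt hn).differentiableAt (by simp))
    ((hw.contDiffAt hn).differentiableAt (by simp))]
  rfl

theorem XD5_norm {w : E2 → V4} {O : Set E2} (hO : IsOpen O) (hw : ContDiffOn ℝ ∞ w O) (i : Fin 2)
    (n : ℕ) {x : E2} (hx : x ∈ O) :
    ‖iteratedFDeriv ℝ n (pd i w) x‖ ≤ ‖iteratedFDeriv ℝ (n + 1) w x‖ := by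
  have h1 : ContDiffOn ℝ ∞ (fderiv ℝ w) O := hw.fderiv_of_isOpen hO (by simp)
  have h2 := norm_iteratedFDeriv_clm_apply_const (c := bv i) (n := n)
    (h1.contDiffAt (hO.mem_nhds hx)) (by exact_mod_cast le_top)
  rw [MD3_bv, one_mul, norm_iteratedFDeriv_fderiv] at h2
  exact h2

theorem XD5_norm0 {w : E2 → V4} {O : Set E2} (hO : IsOpen O) (hw : ContDiffOn ℝ ∞ w O) (i : Fin 2)
    {x : E2} (hx : x ∈ O) : ‖pd i w x‖ ≤ ‖iteratedFDeriv ℝ 1 w x‖ := by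
  have h := XD5_norm hO hw i 0 hx
  rwa [norm_iteratedFDeriv_zero] at h

/-- all the derivatives which are used -/
theorem XD5_diff {O : Set E2} (hO : IsOpen O) {u w D : E2 → V4} (hu : ContDiffOn ℝ ∞ u O)
    (hw : ContDiffOn ℝ ∞ w O) (h : EqOn D (fun x => u x - w x) O) {x : E2} (hx : x ∈ O) {B : ℝ}
    (hB : ∀ j ≤ 3, ‖iteratedFDeriv ℝ j D x‖ ≤ B) :
    ‖pd 1 u x - pd 1 w x‖ ≤ B ∧ ‖pd 1 (pd 1 u) x - pd 1 (pd 1 w) x‖ ≤ B ∧
      ‖pd 1 (pd 1 (pd 1 u)) x - pd 1 (pd 1 (pd 1 w)) x‖ ≤ B ∧ ‖pd 0 u x - pd 0 w x‖ ≤ B ∧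
      ‖pd 1 (pd 0 u) x - pd 1 (pd 0 w) x‖ ≤ B := by
  have hD : ContDiffOn ℝ ∞ D O := (hu.sub hw).congr h
  have k1 := XD5_sub hO hu hw h 1
  have k0 := XD5_sub hO hu hw h 0
  have k11 := XD5_sub hO (XD5_on hO hu 1) (XD5_on hO hw 1) k1 1
  have k10 := XD5_sub hO (XD5_on hO hu 0) (XD5_on hO hw 0) k0 1
  have k111 := XD5_sub hO (XD5_on hO (XD5_on hO hu 1) 1) (XD5_on hO (XD5_on hO hw 1) 1) k11 1
  have d1 := XD5_on hO hD 1
  have d0 := XD5_on hO hD 0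
  have d11 := XD5_on hO d1 1
  refine ⟨?_, ?_, ?_, ?_, ?_⟩
  · have e := k1 hx
    beta_reduce at e
    rw [← e]
    exact (XD5_norm0 hO hD 1 hx).trans (hB 1 (by norm_num))
  · have e := k11 hx
    beta_reduce at e
    rw [← e]
    exact ((XD5_norm0 hO d1 1 hx).trans (XD5_norm hO hD 1 1 hx)).trans (hB 2 (by norm_num))
  · have e := k111 hx
    beta_reduce at e
    rw [← e]
    exact (((XD5_norm0 hO d11 1 hx).trans (XD5_norm hO d1 1 1 hx)).trans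
      (XD5_norm hO hD 1 2 hx)).trans (hB 3 (by norm_num))
  · have e := k0 hx
    beta_reduce at e
    rw [← e]
    exact (XD5_norm0 hO hD 0 hx).trans (hB 1 (by norm_num))
  · have e := k10 hx
    beta_reduce at e
    rw [← e]
    exact ((XD5_norm0 hO d0 1 hx).trans (XD5_norm hO hD 0 1 hx)).trans (hB 2 (by norm_num))

/-- the derivative `d2 d2` is `ddv e2` -/
theorem XD5_ddv (u : E2 → V4) (x : E2) : ddv e2 u x = pd 1 (pd 1 u) x := by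
  unfold ddv pd
  rw [MD2_e2]

/-- conclusions for the family itself, on the open ball of radius three -/
theorem XD5_fam_in (c : Cfg M tf) {K : ℕ} {F : ℝ → E2 → V4} (h : c.IsFam K F) :
    ∃ C : ℝ, 0 < C ∧ ∀ ε ∈ Ioo (0 : ℝ) 1, ∀ x ∈ Metric.ball (0 : E2) 3,
      ‖pd 1 (F ε) x - pd 1 (c.f ∘ c.κ.symm) x‖ ≤ C * Real.sqrt ε ∧
      ‖pd 1 (pd 1 (F ε)) x - pd 1 (pd 1 (c.f ∘ c.κ.symm)) x‖ ≤ C * Real.sqrt ε ∧
      ‖pd 1 (pd 1 (pd 1 (F ε))) x - pd 1 (pd 1 (pd 1 (c.f ∘ c.κ.symm))) x‖ ≤ C * Real.sqrt ε ∧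
      ∃ t ∈ Icc (-1 : ℝ) 1,
        ‖pd 0 (F ε) x - F0 tf (pd 0 (c.f ∘ c.κ.symm) x) (pd 1 (c.f ∘ c.κ.symm) x)
          (pd 1 (pd 1 (c.f ∘ c.κ.symm)) x) (c.a (c.κ.symm x)) t‖ ≤ C * Real.sqrt ε ∧
        ‖pd 1 (pd 0 (F ε)) x - pd 1 (fun z => F0 tf (pd 0 (c.f ∘ c.κ.symm) z)
          (pd 1 (c.f ∘ c.κ.symm) z) (pd 1 (pd 1 (c.f ∘ c.κ.symm)) z) (c.a (c.κ.symm z)) t) x‖ ≤
            C * Real.sqrt ε := by
  obtain ⟨C1, h1⟩ := h.close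
  obtain ⟨C2, h2⟩ := h.first
  refine ⟨max 1 (max C1 C2), lt_max_of_lt_left one_pos, fun ε hε x hx => ?_⟩
  have hsε : 0 ≤ Real.sqrt ε := Real.sqrt_nonneg _
  have m1 : C1 * Real.sqrt ε ≤ max 1 (max C1 C2) * Real.sqrt ε :=
    mul_le_mul_of_nonneg_right ((le_max_left _ _).trans (le_max_right _ _)) hsε
  have m2 : C2 * Real.sqrt ε ≤ max 1 (max C1 C2) * Real.sqrt ε :=
    mul_le_mul_of_nonneg_right ((le_max_right _ _).trans (le_max_right _ _)) hsε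
  obtain ⟨a1, a2, a3⟩ := h1 ε hε x hx
  obtain ⟨t0, ht0, b1, b2⟩ := h2 ε hε x hx
  simp only [XD5_pd0, XD5_pd1]
  refine ⟨a1.trans m1, a2.trans m1, a3.trans m1, ?_⟩
  -- change from `G0` to `F0`
  have hsub : Metric.ball (0 : E2) 3 ⊆ c.κ.target :=
    (Metric.ball_subset_closedBall).trans
      ((Metric.closedBall_subset_closedBall (by norm_num)).trans c.ht)
  have hO : IsOpen (Metric.ball (0 : E2) 3) := Metric.isOpen_ball
  have hg : ContDiffOn ℝ ∞ (c.f ∘ c.κ.symm) (Metric.ball (0 : E2) 3) := (c.hf.loc c.hκ).mono hsub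
  have g0 := XD5_on hO hg 0
  have g1 := XD5_on hO hg 1
  have g11 := XD5_on hO g1 1
  have hyO : Metric.ball (0 : E2) 3 ⊆ c.O' := Metric.ball_subset_closedBall.trans c.hOs
  have hgr : ∀ z ∈ Metric.ball (0 : E2) 3, 0 < gram3 (pd 0 (c.f ∘ c.κ.symm) z)
      (pd 1 (c.f ∘ c.κ.symm) z) (pd 1 (pd 1 (c.f ∘ c.κ.symm)) z) := by
    intro z hz
    have := c.hg z (Metric.ball_subset_closedBall hz)
    unfold GoodIn gramV at this
    rwa [XD5_ddv] at this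
  obtain ⟨t, ht, het⟩ := first_conv tf hO (u₁ := pd 0 (c.f ∘ c.κ.symm))
    (u₂ := pd 1 (c.f ∘ c.κ.symm)) (u₃ := pd 1 (pd 1 (c.f ∘ c.κ.symm))) (y := c.y) c.b
    g0.continuousOn g1.continuousOn g11.continuousOn (c.hys.continuousOn.mono hyO) hgr
    (fun z hz => by
      have := c.hy z (hyO hz)
      simp only [XD5_pd0, XD5_pd1]
      exact this) hx ht0
  refine ⟨t, ht, ?_⟩
  have he : (fun z => F0 tf (ES.d1 (c.f ∘ c.κ.symm) z) (ES.d2 (c.f ∘ c.κ.symm) z)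
      (ES.d2 (ES.d2 (c.f ∘ c.κ.symm)) z) (c.a (c.κ.symm z)) t) =ᶠ[𝓝 x]
      fun z => ES.G0 tf (c.y z) (ES.d1 (c.f ∘ c.κ.symm) z) (ES.d2 (c.f ∘ c.κ.symm) z)
        (ES.d2 (ES.d2 (c.f ∘ c.κ.symm)) z) (c.b z) t0 := by
    simp only [XD5_pd0, XD5_pd1] at het
    filter_upwards [het, hO.mem_nhds hx] with z hz hz2
    rw [hz, c.hb z (hsub hz2)]
  have he1 := he.self_of_nhds
  beta_reduce at he1
  rw [he1]
  refine ⟨b1.trans m2, ?_⟩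
  have he2 : ES.d2 (fun z => F0 tf (ES.d1 (c.f ∘ c.κ.symm) z) (ES.d2 (c.f ∘ c.κ.symm) z)
      (ES.d2 (ES.d2 (c.f ∘ c.κ.symm)) z) (c.a (c.κ.symm z)) t) x =
      ES.d2 (fun z => ES.G0 tf (c.y z) (ES.d1 (c.f ∘ c.κ.symm) z) (ES.d2 (c.f ∘ c.κ.symm) z)
        (ES.d2 (ES.d2 (c.f ∘ c.κ.symm)) z) (c.b z) t0) x := by
    unfold ES.d2
    unfold ES.d2 at he
    rw [he.fderiv_eq]
  rw [he2]
  exact b2.trans m2

/-- conclusions for the family itself, off the ball of radius `7/4` -/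
theorem XD5_fam_out (c : Cfg M tf) {K : ℕ} {F : ℝ → E2 → V4} (h : c.IsFam K F) {ε : ℝ}
    (hε : ε ∈ Ioo (0 : ℝ) 1) {x : E2} (hx : x ∈ Metric.closedBall (0 : E2) 3)
    (hx2 : x ∉ Metric.closedBall (0 : E2) (7 / 4)) :
      pd 1 (F ε) x = pd 1 (c.f ∘ c.κ.symm) x ∧
      pd 1 (pd 1 (F ε)) x = pd 1 (pd 1 (c.f ∘ c.κ.symm)) x ∧
      pd 1 (pd 1 (pd 1 (F ε))) x = pd 1 (pd 1 (pd 1 (c.f ∘ c.κ.symm))) x ∧
      pd 0 (F ε) x = F0 tf (pd 0 (c.f ∘ c.κ.symm) x) (pd 1 (c.f ∘ c.κ.symm) x)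
          (pd 1 (pd 1 (c.f ∘ c.κ.symm)) x) (c.a (c.κ.symm x)) 0 ∧
      pd 1 (pd 0 (F ε)) x = pd 1 (fun z => F0 tf (pd 0 (c.f ∘ c.κ.symm) z)
          (pd 1 (c.f ∘ c.κ.symm) z) (pd 1 (pd 1 (c.f ∘ c.κ.symm)) z) (c.a (c.κ.symm z)) 0) x := by
  have hO : IsOpen (Metric.closedBall (0 : E2) (7 / 4))ᶜ := Metric.isClosed_closedBall.isOpen_compl
  have hcong : ∀ {u w : E2 → V4} {O : Set E2}, IsOpen O → EqOn u w O → ∀ i : Fin 2,
      EqOn (pd i u) (pd i w) O := by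
    intro u w O hO h i z hz
    unfold pd
    rw [(h.eventuallyEq_of_mem (hO.mem_nhds hz)).fderiv_eq]
  have e0 : EqOn (F ε) (c.f ∘ c.κ.symm) (Metric.closedBall (0 : E2) (7 / 4))ᶜ :=
    fun z hz => h.off ε hε z hz
  have e1 := hcong hO e0 1
  have e11 := hcong hO e1 1
  have e111 := hcong hO e11 1
  have e2 := hcong hO e0 0
  have e12 := hcong hO e2 1
  have hxt : x ∈ c.κ.target := c.ht (Metric.closedBall_subset_closedBall (by norm_num) hx)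
  have hT := c.κ.open_target
  have hg : ContDiffOn ℝ ∞ (c.f ∘ c.κ.symm) c.κ.target := c.hf.loc c.hκ
  have g0 := XD5_on hT hg 0
  have g1 := XD5_on hT hg 1
  have g11 := XD5_on hT g1 1
  have hgc := MD3_gram3_cont g0.continuousOn g1.continuousOn g11.continuousOn
  have hpos : 0 < gram3 (pd 0 (c.f ∘ c.κ.symm) x)
      (pd 1 (c.f ∘ c.κ.symm) x) (pd 1 (pd 1 (c.f ∘ c.κ.symm)) x) := by
    have := c.hg x hx
    unfold GoodIn gramV at this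
    rwa [XD5_ddv] at this
  have hev : ∀ᶠ z in 𝓝 x, 0 < gram3 (pd 0 (c.f ∘ c.κ.symm) z)
      (pd 1 (c.f ∘ c.κ.symm) z) (pd 1 (pd 1 (c.f ∘ c.κ.symm)) z) :=
    (hgc.continuousAt (hT.mem_nhds hxt)).eventually (lt_mem_nhds hpos)
  have hF : (fun z => F0 tf (pd 0 (c.f ∘ c.κ.symm) z)
          (pd 1 (c.f ∘ c.κ.symm) z) (pd 1 (pd 1 (c.f ∘ c.κ.symm)) z) (c.a (c.κ.symm z)) 0) =ᶠ[𝓝 x]
      pd 0 (c.f ∘ c.κ.symm) := by
    filter_upwards [hev, hO.mem_nhds hx2, hT.mem_nhds hxt] with z hz hz2 hz3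
    have ha : c.a (c.κ.symm z) = 0 := by
      rw [← c.hb z hz3]
      by_contra hne
      exact hz2 (Metric.closedBall_subset_closedBall (by norm_num) (c.hb1 z hne))
    rw [ha, F0_eq_G0, G0_zero c.tf0 hz]
  refine ⟨e1 hx2, e11 hx2, e111 hx2, ?_, ?_⟩
  · rw [e2 hx2]
    exact hF.self_of_nhds.symm
  · rw [e12 hx2]
    have : ∀ {u w : E2 → V4}, u =ᶠ[𝓝 x] w → pd 1 u x = pd 1 w x := by
      intro u w huw
      unfold pd
      rw [huw.fderiv_eq]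
    exact (this hF).symm

/-- the conclusions in the chart -/
theorem XD5_chart (c : Cfg M tf) (𝒜 : FinAtlas M) {K : ℕ} {F : ℝ → E2 → V4} (h : c.IsFam K F)
    {tol : ℝ} (htol : 0 < tol) : ∃ (ε0 η : ℝ), 0 < ε0 ∧ 0 < η ∧ ∀ ε ∈ Ioo (0 : ℝ) 1, ε < ε0 →
      ∀ F' : M → V4, Sm F' → (∀ p, ClAt 𝒜 3 (F' - c.gl F ε) η p) →
      ∀ x ∈ Metric.closedBall (0 : E2) 3,
          ‖pd 1 (F' ∘ c.κ.symm) x - pd 1 (c.f ∘ c.κ.symm) x‖ ≤ tol ∧
          ‖pd 1 (pd 1 (F' ∘ c.κ.symm)) x - pd 1 (pd 1 (c.f ∘ c.κ.symm)) x‖ ≤ tol ∧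
          ‖pd 1 (pd 1 (pd 1 (F' ∘ c.κ.symm))) x - pd 1 (pd 1 (pd 1 (c.f ∘ c.κ.symm))) x‖ ≤ tol ∧
          ∃ t ∈ Icc (-1 : ℝ) 1,
            ‖pd 0 (F' ∘ c.κ.symm) x - F0 tf (pd 0 (c.f ∘ c.κ.symm) x) (pd 1 (c.f ∘ c.κ.symm) x)
              (pd 1 (pd 1 (c.f ∘ c.κ.symm)) x) (c.a (c.κ.symm x)) t‖ ≤ tol ∧
            ‖pd 1 (pd 0 (F' ∘ c.κ.symm)) x - pd 1 (fun z => F0 tf (pd 0 (c.f ∘ c.κ.symm) z)
              (pd 1 (c.f ∘ c.κ.symm) z) (pd 1 (pd 1 (c.f ∘ c.κ.symm)) z) (c.a (c.κ.symm z)) t) x‖ ≤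
                tol := by
  have hsub : Metric.closedBall (0 : E2) 3 ⊆ c.κ.target :=
    (Metric.closedBall_subset_closedBall (by norm_num)).trans c.ht
  obtain ⟨C1, hC1, hcl⟩ := clAt_chart 𝒜 c.hκ (isCompact_closedBall (0 : E2) 3) hsub 3
  obtain ⟨C2, hC2, hfam⟩ := XD5_fam_in c h
  refine ⟨(tol / (2 * C2)) ^ 2, tol / (2 * C1), by positivity, by positivity, ?_⟩
  intro ε hε hε0 F' hF' hCl x hx
  have hgl : Sm (c.gl F ε) := Cfg.sm_gl h hε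
  have hu : Sm (F' - c.gl F ε) := by
    have h1 : ContMDiff 𝓘(ℝ, E2) 𝓘(ℝ, V4) ∞ F' := hF'
    exact h1.sub hgl
  have hB := hcl (F' - c.gl F ε) (tol / (2 * C1)) hu (by positivity) x hx (hCl _)
  have hB2 : C1 * (tol / (2 * C1)) = tol / 2 := by field_simp
  rw [hB2] at hB
  have hD : EqOn ((F' - c.gl F ε) ∘ c.κ.symm) (fun x => (F' ∘ c.κ.symm) x - F ε x) c.κ.target := by
    intro z hz
    change F' (c.κ.symm z) - glob c.κ c.f (F ε) (c.κ.symm z) = F' (c.κ.symm z) - F ε z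
    rw [glob_chart _ _ _ hz]
  obtain ⟨n1, n2, n3, n4, n5⟩ := XD5_diff c.κ.open_target (hF'.loc c.hκ) (h.smooth ε hε) hD
    (hsub hx) hB
  have tri : ∀ a b d : V4, ‖a - b‖ ≤ tol / 2 → ‖b - d‖ ≤ tol / 2 → ‖a - d‖ ≤ tol := by
    intro a b d h1 h2
    calc ‖a - d‖ = ‖(a - b) + (b - d)‖ := by rw [sub_add_sub_cancel]
      _ ≤ ‖a - b‖ + ‖b - d‖ := norm_add_le _ _
      _ ≤ tol := by linarith
  have tri0 : ∀ a b d : V4, ‖a - b‖ ≤ tol / 2 → b = d → ‖a - d‖ ≤ tol := by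
    intro a b d h1 h2
    rw [← h2]
    linarith
  by_cases hx2 : x ∈ Metric.closedBall (0 : E2) (7 / 4)
  · have hx3 : x ∈ Metric.ball (0 : E2) 3 :=
      Metric.closedBall_subset_ball (by norm_num) hx2
    have hsε : C2 * Real.sqrt ε ≤ tol / 2 := by
      have h1 : Real.sqrt ε ≤ tol / (2 * C2) := Real.sqrt_le_iff.2 ⟨by positivity, hε0.le⟩
      calc C2 * Real.sqrt ε ≤ C2 * (tol / (2 * C2)) := mul_le_mul_of_nonneg_left h1 hC2.le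
        _ = tol / 2 := by field_simp
    obtain ⟨f1, f2, f3, t, ht, f4, f5⟩ := hfam ε hε x hx3
    exact ⟨tri _ _ _ n1 (f1.trans hsε), tri _ _ _ n2 (f2.trans hsε), tri _ _ _ n3 (f3.trans hsε),
      t, ht, tri _ _ _ n4 (f4.trans hsε), tri _ _ _ n5 (f5.trans hsε)⟩
  · obtain ⟨f1, f2, f3, f4, f5⟩ := XD5_fam_out c h hε hx hx2
    exact ⟨tri0 _ _ _ n1 f1, tri0 _ _ _ n2 f2, tri0 _ _ _ n3 f3, 0, by norm_num,
      tri0 _ _ _ n4 f4, tri0 _ _ _ n5 f5⟩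

end P205F
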