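import Vale.Agent.Lib.P205F.MStmt
import Vale.Agent.Lib.P205F.MD2
import Vale.Agent.Lib.P205E.EStmt

/-!
# P205X module XC: `F0` and `G0`
-/

noncomputable section

namespace P205F

open scoped ContDiff Topology RealInnerProductSpace
open Set

theorem F0_eq_G0 (tf : ℝ → ℝ) (u₁ u₂ u₃ : V4) (α c : ℝ) :
    F0 tf u₁ u₂ u₃ α c = ES.G0 tf (nor u₁ u₂ u₃) u₁ u₂ u₃ α c := rfl

theorem G0_zero {tf : ℝ → ℝ} (h0 : tf 0 = 0) {u₁ u₂ u₃ : V4} (h : 0 < gram3 u₁ u₂ u₃) (y : V4)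
    (c : ℝ) : ES.G0 tf y u₁ u₂ u₃ 0 c = u₁ := by
  have _ := h
  have h1 : Real.sqrt (‖ES.per u₂ u₃ u₁‖ ^ 2 + (0 : ℝ) ^ 2) = ‖ES.per u₂ u₃ u₁‖ := by
    rw [zero_pow two_ne_zero, add_zero, Real.sqrt_sq (norm_nonneg _)]
  unfold ES.G0
  rw [zero_div, h0, h1]
  simp only [zero_pow two_ne_zero, zero_mul, add_zero, Real.sqrt_one, inv_one, mul_one, zero_smul,
    smul_smul]
  have h2 : ES.par u₂ u₃ u₁ + ES.per u₂ u₃ u₁ = u₁ := by
    unfold ES.per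
    abel
  by_cases h3 : ‖ES.per u₂ u₃ u₁‖ = 0
  · rw [h3, zero_mul, zero_smul]
    rw [norm_eq_zero.1 h3] at h2
    exact h2
  · rw [mul_inv_cancel₀ h3, one_smul]
    exact h2

theorem G0_neg (tf : ℝ → ℝ) (y u₁ u₂ u₃ : V4) (α c : ℝ) :
    ES.G0 tf (-y) u₁ u₂ u₃ α c = ES.G0 tf y u₁ u₂ u₃ α (-c) := by
  unfold ES.G0
  rw [smul_neg, mul_neg, neg_smul, neg_sq]

/-- the Gram determinant of `b, c` -/
theorem XC_D_pos {a b c : V4} (h : 0 < gram3 a b c) : 0 < ⟪b, b⟫ * ⟪c, c⟫ - ⟪b, c⟫ ^ 2 := by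
  have h1 : 0 ≤ ⟪b, b⟫ * ⟪c, c⟫ - ⟪b, c⟫ ^ 2 := by
    have h2 := real_inner_mul_inner_self_le b c
    nlinarith
  refine lt_of_le_of_ne h1 fun h2 => ?_
  have h3 : ‖⟪c, c⟫ • b - ⟪b, c⟫ • c‖ ^ 2 = 0 := by
    rw [← real_inner_self_eq_norm_sq]
    simp only [inner_sub_left, inner_sub_right, real_inner_smul_left, real_inner_smul_right]
    rw [real_inner_comm b c]
    linear_combination (-⟪c, c⟫) * h2
  have h4 : (0 : ℝ) • a + ⟪c, c⟫ • b + (-⟪b, c⟫) • c = 0 := by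
    rw [zero_smul, zero_add, neg_smul, ← sub_eq_add_neg]
    exact norm_eq_zero.1 (pow_eq_zero_iff two_ne_zero |>.1 h3)
  obtain ⟨-, h5, -⟩ := MD2_dep h4 h
  have h6 : c = 0 := inner_self_eq_zero.1 h5
  have h7 : (0 : ℝ) • a + (0 : ℝ) • b + (1 : ℝ) • c = 0 := by
    rw [h6]
    simp
  obtain ⟨-, -, h8⟩ := MD2_dep h7 h
  exact one_ne_zero h8

theorem XC_par_form (b c u : V4) : ∃ x y : ℝ, ES.par b c u = x • b + y • c :=
  ⟨_, _, by unfold ES.par; rw [smul_add, smul_smul, smul_smul]⟩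

theorem XC_per_orth {b c : V4} (hD : 0 < ⟪b, b⟫ * ⟪c, c⟫ - ⟪b, c⟫ ^ 2) (u : V4) :
    ⟪ES.per b c u, b⟫ = 0 ∧ ⟪ES.per b c u, c⟫ = 0 := by
  have hD' := hD.ne'
  unfold ES.per ES.par
  constructor
  · simp only [inner_sub_left, real_inner_smul_left, inner_add_left]
    rw [real_inner_comm b c]
    field_simp
    ring
  · simp only [inner_sub_left, real_inner_smul_left, inner_add_left]
    field_simp
    ring

/-- the Gram determinant when the orthogonal component of the first vector is known -/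
theorem XC_gram {b c w : V4} (x y : ℝ) (hb : ⟪w, b⟫ = 0) (hc : ⟪w, c⟫ = 0) :
    gram3 (x • b + y • c + w) b c = (⟪b, b⟫ * ⟪c, c⟫ - ⟪b, c⟫ ^ 2) * ‖w‖ ^ 2 := by
  have hb' : ⟪b, w⟫ = 0 := by rw [real_inner_comm]; exact hb
  have hc' : ⟪c, w⟫ = 0 := by rw [real_inner_comm]; exact hc
  unfold gram3
  rw [← real_inner_self_eq_norm_sq]
  simp only [inner_add_left, inner_add_right, real_inner_smul_left, real_inner_smul_right, hb, hc,
    hb', hc']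
  rw [real_inner_comm b c]
  ring

theorem XC_norm {b c w : V4} (x y : ℝ) (hb : ⟪w, b⟫ = 0) (hc : ⟪w, c⟫ = 0) :
    ‖x • b + y • c + w‖ ^ 2 = ‖x • b + y • c‖ ^ 2 + ‖w‖ ^ 2 := by
  have h1 : ⟪x • b + y • c, w⟫ = 0 := by
    rw [inner_add_left, real_inner_smul_left, real_inner_smul_left, real_inner_comm w b,
      real_inner_comm w c, hb, hc]
    ring
  rw [norm_add_sq_real, h1]
  ring

/-- nondegeneracy and size of `G0` -/
theorem gram3_G0 (tf : ℝ → ℝ) {y u₁ u₂ u₃ : V4} (h : 0 < gram3 u₁ u₂ u₃) (hy : ‖y‖ = 1)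
    (h1 : ⟪u₁, y⟫ = 0) (h2 : ⟪u₂, y⟫ = 0) (h3 : ⟪u₃, y⟫ = 0) (α c : ℝ) :
    gram3 u₁ u₂ u₃ ≤ gram3 (ES.G0 tf y u₁ u₂ u₃ α c) u₂ u₃ ∧
    ‖ES.G0 tf y u₁ u₂ u₃ α c‖ ^ 2 = ‖u₁‖ ^ 2 + α ^ 2 := by
  have hD := XC_D_pos h
  obtain ⟨p, q, hpq⟩ := XC_par_form u₂ u₃ u₁
  obtain ⟨o2, o3⟩ := XC_per_orth hD u₁
  set z : V4 := ES.per u₂ u₃ u₁ with hz
  have hu : u₁ = p • u₂ + q • u₃ + z := by
    rw [hz, ← hpq]
    unfold ES.per
    abel
  have hzy : ⟪z, y⟫ = 0 := by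
    have : z = u₁ - (p • u₂ + q • u₃) := by rw [hu]; abel
    rw [this, inner_sub_left, inner_add_left, real_inner_smul_left, real_inner_smul_left, h1, h2,
      h3]
    ring
  have hg1 : gram3 u₁ u₂ u₃ = (⟪u₂, u₂⟫ * ⟪u₃, u₃⟫ - ⟪u₂, u₃⟫ ^ 2) * ‖z‖ ^ 2 := by
    conv_lhs => rw [hu]
    exact XC_gram p q o2 o3
  have hz0 : ‖z‖ ≠ 0 := by
    intro h0
    rw [hg1, h0] at h
    norm_num at h
  set t : ℝ := tf (α / ‖z‖) * c with ht
  set w : V4 := (Real.sqrt (‖z‖ ^ 2 + α ^ 2) * (Real.sqrt (1 + tf (α / ‖z‖) ^ 2 * c ^ 2))⁻¹) •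
      (‖z‖⁻¹ • z + t • y) with hw
  have hG : ES.G0 tf y u₁ u₂ u₃ α c = p • u₂ + q • u₃ + w := by
    unfold ES.G0
    rw [hpq]
  have w2 : ⟪w, u₂⟫ = 0 := by
    rw [hw, real_inner_smul_left, inner_add_left, real_inner_smul_left, real_inner_smul_left, o2,
      real_inner_comm, h2]
    ring
  have w3 : ⟪w, u₃⟫ = 0 := by
    rw [hw, real_inner_smul_left, inner_add_left, real_inner_smul_left, real_inner_smul_left, o3,
      real_inner_comm, h3]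
    ring
  have hwn : ‖w‖ ^ 2 = ‖z‖ ^ 2 + α ^ 2 := by
    have e1 : ‖‖z‖⁻¹ • z + t • y‖ ^ 2 = 1 + t ^ 2 := by
      rw [norm_add_sq_real, norm_smul, norm_smul, norm_inv, norm_norm, inv_mul_cancel₀ hz0, hy,
        real_inner_smul_left, real_inner_smul_right, hzy, Real.norm_eq_abs, mul_one, sq_abs]
      ring
    have e2 : t ^ 2 = tf (α / ‖z‖) ^ 2 * c ^ 2 := by rw [ht, mul_pow]
    have e3 : (0 : ℝ) < 1 + tf (α / ‖z‖) ^ 2 * c ^ 2 := by positivity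
    rw [hw, norm_smul, mul_pow, e1, e2, Real.norm_eq_abs, sq_abs, mul_pow, inv_pow,
      Real.sq_sqrt (by positivity), Real.sq_sqrt e3.le]
    field_simp
  constructor
  · rw [hG, XC_gram p q w2 w3, hg1, hwn]
    exact mul_le_mul_of_nonneg_left (by nlinarith [sq_nonneg α]) hD.le
  · rw [hG, XC_norm p q w2 w3, hwn]
    conv_rhs => rw [hu]
    rw [XC_norm p q o2 o3]
    ring

end P205F
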