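import Mathlib
import Vale.Agent.Lib.P205F.MD3
import Vale.Agent.Lib.P205X.XC
import Vale.Agent.Lib.P205X.XDefs

/-!
# P205X module XD4: good directions

In the chart `κ`: `u₁ = d1 F`, `u₂ = d2 F`, `u₃ = d2 d2 F` are `C √ε`-close to `G0 ..`, `d2 f`, `d2 d2 f`, and
`gram3 (G0 ..) (d2 f) (d2 d2 f) ≥ gram3 (d1 f) (d2 f) (d2 d2 f) ≥ c₀ > 0` on the closed ball (`gram3_G0`, compactness);
`gram3_sub_le`.  Then in the charts of the atlas by `gramV_comp` (direction `v` = preimage of `e2`, normalised).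
-/

noncomputable section

namespace P205F

open scoped Manifold ContDiff Topology RealInnerProductSpace
open Set

variable {M : Type} [TopologicalSpace M] [ChartedSpace E2 M] [IsManifold 𝓘(ℝ, E2) ∞ M] [T2Space M]
  {tf : ℝ → ℝ}

theorem XD4_pd0 (G : E2 → V4) (x : E2) : pd 0 G x = ES.d1 G x := rfl

theorem XD4_pd1 (G : E2 → V4) (x : E2) : pd 1 G x = ES.d2 G x := rfl

theorem XD4_ddv (G : E2 → V4) (x : E2) : ddv e2 G x = ES.d2 (ES.d2 G) x := rfl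

theorem XD4_gramV (G : E2 → V4) (x : E2) :
    gramV G e2 x = gram3 (ES.d1 G x) (ES.d2 G x) (ES.d2 (ES.d2 G) x) := rfl

theorem XD4_cont {G : E2 → V4} {O K : Set E2} (hO : IsOpen O) (hG : ContDiffOn ℝ ∞ G O)
    (hK : K ⊆ O) : ContinuousOn (fun x : E2 => gramV G e2 x) K := by
  have h1 := MD3_gramV_cont hO hG
  have h2 : ContinuousOn (fun x : E2 => ((x, e2) : E2 × E2)) K :=
    (Continuous.prodMk continuous_id continuous_const).continuousOn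
  have h3 : MapsTo (fun x : E2 => ((x, e2) : E2 × E2)) K (O ×ˢ (univ : Set E2)) :=
    fun x hx => mem_prod.2 ⟨hK hx, mem_univ _⟩
  exact ContinuousOn.comp (g := fun q : E2 × E2 => gramV G q.2 q.1)
    (f := fun x : E2 => ((x, e2) : E2 × E2)) (t := O ×ˢ (univ : Set E2)) h1 h2 h3

theorem XD4_e2 : ‖(e2 : E2)‖ = 1 := by
  simp [e2, Prod.norm_def]

/-- bounds of the model on the closed ball -/
theorem XD4_bound (c : Cfg M tf) : ∃ (c1 R : ℝ), 0 < c1 ∧ 1 ≤ R ∧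
    ∀ x ∈ Metric.closedBall (0 : E2) 3,
      c1 ≤ gram3 (ES.d1 (c.f ∘ c.κ.symm) x) (ES.d2 (c.f ∘ c.κ.symm) x)
        (ES.d2 (ES.d2 (c.f ∘ c.κ.symm)) x) ∧
      ‖ES.d2 (c.f ∘ c.κ.symm) x‖ ≤ R ∧ ‖ES.d2 (ES.d2 (c.f ∘ c.κ.symm)) x‖ ≤ R ∧
      ∀ t, ‖ES.G0 tf (c.y x) (ES.d1 (c.f ∘ c.κ.symm) x) (ES.d2 (c.f ∘ c.κ.symm) x)
        (ES.d2 (ES.d2 (c.f ∘ c.κ.symm)) x) (c.b x) t‖ ≤ R := by
  have hsub : Metric.closedBall (0 : E2) 3 ⊆ c.κ.target :=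
    (Metric.closedBall_subset_closedBall (by norm_num)).trans c.ht
  have hK : IsCompact (Metric.closedBall (0 : E2) 3) := isCompact_closedBall 0 3
  have hG := c.hf.loc c.hκ
  have hcont : ContinuousOn (fun x : E2 => gramV (c.f ∘ c.κ.symm) e2 x)
      (Metric.closedBall (0 : E2) 3) := XD4_cont c.κ.open_target hG hsub
  obtain ⟨c1, hc1, hcb⟩ := hK.exists_forall_le' hcont (a := 0) (fun x hx => c.hg x hx)
  obtain ⟨R0, hR0, hR0b⟩ := MD3_bound c.κ.open_target hG hK hsub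
  obtain ⟨Rb, hRb⟩ := hK.exists_bound_of_continuousOn (f := c.b) c.hbs.continuous.continuousOn
  have hRb' : 0 ≤ |Rb| := abs_nonneg _
  refine ⟨c1, R0 + |Rb|, hc1, by linarith, fun x hx => ?_⟩
  obtain ⟨hd1', hd2', hd3'⟩ := hR0b x hx e2 XD4_e2
  have hd1 : ‖ES.d1 (c.f ∘ c.κ.symm) x‖ ≤ R0 := hd1'
  have hd2 : ‖ES.d2 (c.f ∘ c.κ.symm) x‖ ≤ R0 := hd2'
  have hd3 : ‖ES.d2 (ES.d2 (c.f ∘ c.κ.symm)) x‖ ≤ R0 := hd3'
  have hb : |c.b x| ≤ |Rb| := (hRb x hx).trans (le_abs_self _)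
  have hgr : c1 ≤ gram3 (ES.d1 (c.f ∘ c.κ.symm) x) (ES.d2 (c.f ∘ c.κ.symm) x)
      (ES.d2 (ES.d2 (c.f ∘ c.κ.symm)) x) := hcb x hx
  refine ⟨hgr, by linarith, by linarith, fun t => ?_⟩
  obtain ⟨y1, y2, y3, y4⟩ := c.hy x (c.hOs hx)
  have h1 := (gram3_G0 tf (lt_of_lt_of_le hc1 hgr) y1 y2 y3 y4 (c.b x) t).2
  refine abs_le_of_sq_le_sq' ?_ (by linarith) |>.2
  rw [h1]
  have h2 : c.b x ^ 2 ≤ |Rb| ^ 2 := by
    rw [← sq_abs (c.b x)]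
    exact pow_le_pow_left₀ (abs_nonneg _) hb 2
  have h3 : ‖ES.d1 (c.f ∘ c.κ.symm) x‖ ^ 2 ≤ R0 ^ 2 := pow_le_pow_left₀ (norm_nonneg _) hd1 2
  have h4 : 0 ≤ R0 * |Rb| := mul_nonneg (by linarith) hRb'
  have h5 : (R0 + |Rb|) ^ 2 = R0 ^ 2 + |Rb| ^ 2 + 2 * (R0 * |Rb|) := by ring
  rw [h5]
  linarith

/-- stability in the chart: every map which is `η`-close to the model is good in direction `e2` -/
theorem XD4_stab (c : Cfg M tf) : ∃ (c0 η : ℝ), 0 < c0 ∧ 0 < η ∧ ∀ x ∈ Metric.closedBall (0 : E2) 3,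
    ∀ t ∈ Icc (-1 : ℝ) 1, ∀ w₁ w₂ w₃ : V4,
      ‖w₁ - ES.G0 tf (c.y x) (ES.d1 (c.f ∘ c.κ.symm) x) (ES.d2 (c.f ∘ c.κ.symm) x)
        (ES.d2 (ES.d2 (c.f ∘ c.κ.symm)) x) (c.b x) t‖ ≤ η →
      ‖w₂ - ES.d2 (c.f ∘ c.κ.symm) x‖ ≤ η → ‖w₃ - ES.d2 (ES.d2 (c.f ∘ c.κ.symm)) x‖ ≤ η →
      c0 ≤ gram3 w₁ w₂ w₃ := by
  obtain ⟨c1, R, hc1, hR, hb⟩ := XD4_bound c
  obtain ⟨η, hη, hη1, hηc⟩ := MD3_eta hR (half_pos hc1)
  refine ⟨c1 / 2, η, half_pos hc1, hη, fun x hx t _ w₁ w₂ w₃ hw1 hw2 hw3 => ?_⟩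
  obtain ⟨hg, h2, h3, h1⟩ := hb x hx
  obtain ⟨y1, y2, y3, y4⟩ := c.hy x (c.hOs hx)
  have h4 := (gram3_G0 tf (lt_of_lt_of_le hc1 hg) y1 y2 y3 y4 (c.b x) t).1
  have h5 := gram3_sub_le _ _ _ w₁ w₂ w₃ R η (h1 t) h2 h3 hw1 hw2 hw3 hη1 hR
  have h6 := (abs_le.1 h5).1
  linarith

theorem XD4_good_chart (c : Cfg M tf) {K : ℕ} {F : ℝ → E2 → V4} (h : c.IsFam K F) :
    ∃ (c0 ε0 : ℝ), 0 < c0 ∧ 0 < ε0 ∧ ∀ ε ∈ Ioo (0 : ℝ) 1, ε < ε0 → ∀ x ∈ Metric.closedBall (0 : E2) 2,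
      c0 ≤ gramV (F ε) e2 x := by
  obtain ⟨c0, η, hc0, hη, hst⟩ := XD4_stab c
  obtain ⟨C1, hC1⟩ := h.close
  obtain ⟨C2, hC2⟩ := h.first
  obtain ⟨C, hC⟩ : ∃ C : ℝ, C = 1 + |C1| + |C2| := ⟨_, rfl⟩
  have hC0 : 0 < C := by
    have := abs_nonneg C1
    have := abs_nonneg C2
    linarith
  have hC1' : C1 ≤ C := by
    have := le_abs_self C1
    have := abs_nonneg C2
    linarith
  have hC2' : C2 ≤ C := by
    have := le_abs_self C2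
    have := abs_nonneg C1
    linarith
  refine ⟨c0, (η / C) ^ 2, hc0, by positivity, fun ε hε hε0 x hx => ?_⟩
  have hs : Real.sqrt ε ≤ η / C := by
    rw [Real.sqrt_le_left (by positivity)]
    exact hε0.le
  have hs0 := Real.sqrt_nonneg ε
  have hle : C * Real.sqrt ε ≤ η := by
    have := mul_le_mul_of_nonneg_left hs hC0.le
    rwa [mul_div_cancel₀ _ hC0.ne'] at this
  have hle1 : C1 * Real.sqrt ε ≤ η := (mul_le_mul_of_nonneg_right hC1' hs0).trans hle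
  have hle2 : C2 * Real.sqrt ε ≤ η := (mul_le_mul_of_nonneg_right hC2' hs0).trans hle
  have hxb : x ∈ Metric.ball (0 : E2) 3 := by
    rw [Metric.mem_closedBall] at hx
    rw [Metric.mem_ball]
    linarith
  obtain ⟨a1, a2, _⟩ := hC1 ε hε x hxb
  obtain ⟨t, ht, b1, _⟩ := hC2 ε hε x hxb
  rw [XD4_gramV]
  exact hst x (Metric.ball_subset_closedBall hxb) t ht _ _ _ (b1.trans hle2) (a1.trans hle1)
    (a2.trans hle1)

end P205F
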