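import Mathlib
import Vale.Agent.Lib.P205X.XD4

/-!
# P205X module XD5b: conclusions off the ball, good directions of `F'`

`XD5_good`: where `κ p ∈ ball 0 2` use `XD4_stab` with the estimates of `clAt_chart` and of `Fam`; elsewhere `XD5_off` and
`goodAll_stable`.
-/

noncomputable section

namespace P205F

open scoped Manifold ContDiff Topology RealInnerProductSpace
open Set

theorem XD5b_d1 (G : E2 → V4) (x : E2) : ES.d1 G x = pd 0 G x := by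
  simp [ES.d1, pd, bv]

theorem XD5b_d2 (G : E2 → V4) (x : E2) : ES.d2 G x = pd 1 G x := by
  simp [ES.d2, pd, bv]

theorem XD5b_dd (G : E2 → V4) (x : E2) : ES.d2 (ES.d2 G) x = ddv e2 G x := rfl

theorem XD5b_e2 : ‖e2‖ = 1 := by
  simp [e2, Prod.norm_def]

theorem XD5b_sqrt {C η : ℝ} (hη : 0 < η) : ∃ ε0 : ℝ, 0 < ε0 ∧ ∀ ε : ℝ, 0 < ε → ε < ε0 →
    C * Real.sqrt ε ≤ η := by
  refine ⟨(η / (|C| + 1)) ^ 2, by positivity, fun ε hε hlt => ?_⟩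
  have h1 : Real.sqrt ε ≤ η / (|C| + 1) := by
    rw [Real.sqrt_le_left (by positivity)]
    exact hlt.le
  calc C * Real.sqrt ε ≤ |C| * Real.sqrt ε :=
        mul_le_mul_of_nonneg_right (le_abs_self C) (Real.sqrt_nonneg _)
    _ ≤ |C| * (η / (|C| + 1)) := mul_le_mul_of_nonneg_left h1 (abs_nonneg C)
    _ ≤ (|C| + 1) * (η / (|C| + 1)) :=
        mul_le_mul_of_nonneg_right (by linarith) (by positivity)
    _ = η := by field_simp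

variable {M : Type} [TopologicalSpace M] [ChartedSpace E2 M] [IsManifold 𝓘(ℝ, E2) ∞ M] [T2Space M]
  {tf : ℝ → ℝ}

/-- off the ball of radius two -/
theorem XD5_off (c : Cfg M tf) (𝒜 : FinAtlas M) {K : ℕ} {F : ℝ → E2 → V4} (h : c.IsFam K F)
    {ε η : ℝ} (hε : ε ∈ Ioo (0 : ℝ) 1) {F' : M → V4} (hF' : ∀ p, ClAt 𝒜 3 (F' - c.gl F ε) η p)
    {p : M} (hp : ¬ (p ∈ c.κ.source ∧ c.κ p ∈ Metric.ball (0 : E2) 2)) :
    ClAt 𝒜 3 (F' - c.f) η p := by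
  have hp' : ¬ (p ∈ c.κ.source ∧ c.κ p ∈ Metric.closedBall (0 : E2) (7 / 4)) := by
    rintro ⟨h1, h2⟩
    exact hp ⟨h1, Metric.closedBall_subset_ball (by norm_num) h2⟩
  have hn : c.gl F ε =ᶠ[𝓝 p] c.f := glob_near c.ht (Cfg.off h hε) hp'
  intro k hk1 hk2 j hj
  have hc : Filter.Tendsto (𝒜.φ k).symm (𝓝 (𝒜.φ k p)) (𝓝 p) := by
    have h1 := (𝒜.φ k).continuousAt_symm ((𝒜.φ k).map_source hk1)
    rw [ContinuousAt, (𝒜.φ k).left_inv hk1] at h1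
    exact h1
  have he : (F' - c.f) ∘ (𝒜.φ k).symm =ᶠ[𝓝 (𝒜.φ k p)] (F' - c.gl F ε) ∘ (𝒜.φ k).symm := by
    filter_upwards [hc.eventually hn] with x hx
    simp only [Function.comp_apply, Pi.sub_apply]
    rw [hx]
  rw [(he.iteratedFDeriv ℝ j).eq_of_nhds]
  exact hF' p k hk1 hk2 j hj

/-- the estimates for `F' ∘ κ.symm` -/
theorem XD5b_close (c : Cfg M tf) (𝒜 : FinAtlas M) {K : ℕ} {F : ℝ → E2 → V4} (h : c.IsFam K F) :
    ∃ C : ℝ, 0 < C ∧ ∀ ε ∈ Ioo (0 : ℝ) 1, ∀ (F' : M → V4) (η : ℝ), Sm F' → 0 ≤ η →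
      (∀ p, ClAt 𝒜 3 (F' - c.gl F ε) η p) → ∀ x ∈ Metric.closedBall (0 : E2) 2,
        ‖pd 0 (F' ∘ c.κ.symm) x - pd 0 (F ε) x‖ ≤ C * η ∧
        ‖pd 1 (F' ∘ c.κ.symm) x - pd 1 (F ε) x‖ ≤ C * η ∧
        ‖ddv e2 (F' ∘ c.κ.symm) x - ddv e2 (F ε) x‖ ≤ C * η := by
  have hsub : Metric.closedBall (0 : E2) 2 ⊆ c.κ.target :=
    (Metric.closedBall_subset_closedBall (by norm_num)).trans c.ht
  obtain ⟨C, hC, hb⟩ := clAt_chart 𝒜 c.hκ (isCompact_closedBall (0 : E2) 2) hsub 3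
  refine ⟨C, hC, fun ε hε F' η hF' hη hcl x hx => ?_⟩
  have hxt : x ∈ c.κ.target := hsub hx
  have hgl : Sm (c.gl F ε) := Cfg.sm_gl h hε
  have hu : Sm (F' - c.gl F ε) := ContMDiff.sub hF' hgl
  have h1 := hb (F' - c.gl F ε) η hu hη x hx (hcl _)
  have he : (F' - c.gl F ε) ∘ c.κ.symm =ᶠ[𝓝 x] (F' ∘ c.κ.symm) - F ε := by
    filter_upwards [c.κ.open_target.mem_nhds hxt] with z hz
    simp only [Function.comp_apply, Pi.sub_apply]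
    rw [Cfg.gl, glob_chart c.κ c.f (F ε) hz]
  have hG' := MD3_at c.κ.open_target (hF'.loc c.hκ) hxt
  have hG := MD3_at c.κ.open_target (h.smooth ε hε) hxt
  have h2 : ∀ j ≤ 3, ‖iteratedFDeriv ℝ j ((F' ∘ c.κ.symm) - F ε) x‖ ≤ C * η := by
    intro j hj
    rw [← (he.iteratedFDeriv ℝ j).eq_of_nhds]
    exact h1 j hj
  refine ⟨?_, ?_, ?_⟩
  · rw [← MD3_pd_sub hG hG']
    exact (MD3_pd_norm _ x 0).trans (h2 1 (by norm_num))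
  · rw [← MD3_pd_sub hG hG']
    exact (MD3_pd_norm _ x 1).trans (h2 1 (by norm_num))
  · rw [← MD3_ddv_sub hG hG']
    exact (MD3_ddv_norm (hG'.sub hG) e2 XD5b_e2).trans (h2 2 (by norm_num))

/-- the good direction `e2` in the chart -/
theorem XD5b_in (c : Cfg M tf) (𝒜 : FinAtlas M) {K : ℕ} {F : ℝ → E2 → V4}
    (h : c.IsFam K F) : ∃ (ε0 η : ℝ), 0 < ε0 ∧ 0 < η ∧ ∀ ε ∈ Ioo (0 : ℝ) 1, ε < ε0 →
      ∀ F' : M → V4, Sm F' → (∀ p, ClAt 𝒜 3 (F' - c.gl F ε) η p) →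
      ∀ x ∈ Metric.closedBall (0 : E2) 2, GoodIn c.κ F' e2 x := by
  obtain ⟨c0, η1, hc0, hη1, hst⟩ := XD4_stab c
  obtain ⟨C, hC, hcl⟩ := XD5b_close c 𝒜 h
  obtain ⟨C1, h1⟩ := h.close
  obtain ⟨C2, h2⟩ := h.first
  obtain ⟨ε1, hε1, hs1⟩ := XD5b_sqrt (C := C1) (η := η1 / 2) (by positivity)
  obtain ⟨ε2, hε2, hs2⟩ := XD5b_sqrt (C := C2) (η := η1 / 2) (by positivity)
  refine ⟨min ε1 ε2, η1 / (2 * C), lt_min hε1 hε2, by positivity, ?_⟩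
  intro ε hε hεlt F' hF' hF'cl x hx
  have hx3 : x ∈ Metric.ball (0 : E2) 3 := Metric.closedBall_subset_ball (by norm_num) hx
  have hx3' : x ∈ Metric.closedBall (0 : E2) 3 := Metric.ball_subset_closedBall hx3
  obtain ⟨a0, a1, a2⟩ := hcl ε hε F' (η1 / (2 * C)) hF' (by positivity) hF'cl x hx
  have hCη : C * (η1 / (2 * C)) = η1 / 2 := by
    field_simp
  rw [hCη] at a0 a1 a2
  obtain ⟨b1, b2, -⟩ := h1 ε hε x hx3
  obtain ⟨t, ht, b0, -⟩ := h2 ε hε x hx3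
  have e1 : C1 * Real.sqrt ε ≤ η1 / 2 := hs1 ε hε.1 (lt_of_lt_of_le hεlt (min_le_left _ _))
  have e2' : C2 * Real.sqrt ε ≤ η1 / 2 := hs2 ε hε.1 (lt_of_lt_of_le hεlt (min_le_right _ _))
  have key := hst x hx3' t ht (pd 0 (F' ∘ c.κ.symm) x) (pd 1 (F' ∘ c.κ.symm) x)
    (ddv e2 (F' ∘ c.κ.symm) x) ?_ ?_ ?_
  · exact lt_of_lt_of_le hc0 key
  · have h3 := norm_add_le (pd 0 (F' ∘ c.κ.symm) x - pd 0 (F ε) x)
      (ES.d1 (F ε) x - ES.G0 tf (c.y x) (ES.d1 (c.f ∘ c.κ.symm) x) (ES.d2 (c.f ∘ c.κ.symm) x)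
        (ES.d2 (ES.d2 (c.f ∘ c.κ.symm)) x) (c.b x) t)
    rw [XD5b_d1 (F ε) x, sub_add_sub_cancel] at h3
    rw [XD5b_d1 (F ε) x] at b0
    linarith
  · have h3 := norm_add_le (pd 1 (F' ∘ c.κ.symm) x - pd 1 (F ε) x)
      (ES.d2 (F ε) x - ES.d2 (c.f ∘ c.κ.symm) x)
    rw [XD5b_d2 (F ε) x, sub_add_sub_cancel] at h3
    rw [XD5b_d2 (F ε) x] at b1
    linarith
  · have h3 := norm_add_le (ddv e2 (F' ∘ c.κ.symm) x - ddv e2 (F ε) x)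
      (ES.d2 (ES.d2 (F ε)) x - ES.d2 (ES.d2 (c.f ∘ c.κ.symm)) x)
    rw [XD5b_dd (F ε) x, sub_add_sub_cancel] at h3
    rw [XD5b_dd (F ε) x] at b2
    linarith

theorem XD5b_mono {𝒜 : FinAtlas M} {r r' : ℕ} (hr : r' ≤ r) {u : M → V4} {η η' : ℝ} (hη : η ≤ η')
    {p : M} (h : ClAt 𝒜 r u η p) : ClAt 𝒜 r' u η' p :=
  fun k h1 h2 j hj => (h k h1 h2 j (hj.trans hr)).trans hη

/-- good directions of `F'` -/
theorem XD5_good [CompactSpace M] (c : Cfg M tf) (𝒜 : FinAtlas M) {K : ℕ} {F : ℝ → E2 → V4}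
    (h : c.IsFam K F) : ∃ (ε0 η : ℝ), 0 < ε0 ∧ 0 < η ∧ ∀ ε ∈ Ioo (0 : ℝ) 1, ε < ε0 →
      ∀ F' : M → V4, Sm F' → (∀ p, ClAt 𝒜 3 (F' - c.gl F ε) η p) → GoodAll F' := by
  obtain ⟨ε0, η1, hε0, hη1, h1⟩ := XD5b_in c 𝒜 h
  obtain ⟨η2, hη2, h2⟩ := goodAll_stable 𝒜 c.hf c.hgood
  refine ⟨ε0, min η1 η2, hε0, lt_min hη1 hη2, ?_⟩
  intro ε hε hlt F' hF' hcl p
  by_cases hp : p ∈ c.κ.source ∧ c.κ p ∈ Metric.ball (0 : E2) 2
  · have hg : GoodIn c.κ F' e2 (c.κ p) :=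
      h1 ε hε hlt F' hF' (fun q => XD5b_mono le_rfl (min_le_left _ _) (hcl q)) _
        (Metric.ball_subset_closedBall hp.2)
    have hxt : c.κ p ∈ c.κ.target := c.κ.map_source hp.1
    refine ⟨TTi c.κ (c.κ p) e2, ?_⟩
    rw [goodIn_TT hF' c.hκ hp.1]
    have h4 := TT_comp_TTi c.hκ hxt
    rw [c.κ.left_inv hp.1] at h4
    have h5 : TT c.κ p (TTi c.κ (c.κ p) e2) = e2 := by
      have := congrArg (fun L : E2 →L[ℝ] E2 => L e2) h4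
      simpa using this
    rw [h5]
    exact hg
  · have hoff : ClAt 𝒜 3 (F' - c.f) (min η1 η2) p := XD5_off c 𝒜 h hε hcl hp
    exact h2 F' hF' p (XD5b_mono (by norm_num) (min_le_right _ _) hoff)

end P205F
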