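import Mathlib
import Vale.Agent.Lib.P205X.XA2
import Vale.Agent.Lib.P205X.XD1
import Vale.Agent.Lib.P205X.XD3
import Vale.Agent.Lib.P205X.XD4b
import Vale.Agent.Lib.P205X.XD5
import Vale.Agent.Lib.P205X.XD5b

/-!
# P205X module XF: theorem ES from theorem T and the local exact stage

Given `𝒜`, `tol`: `ThmT` with `r0 = 3` gives `m, s, C`.  `N = s + 2`, `Λ = ε^(-N)`, `K = s + 3 + N m`, `δ = ε^(K - s - 2)`:
`C Λ^m δ = C ε ≤ 1`, all hypotheses hold for small `ε` (`XD1_bound`, `XD2_metric`, `XD3_imm`, `XD4_good`), and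
`δ^(1/4)` is as small as needed for `XD5_chart`, `XD5_off`, `XD5_good`.
-/

noncomputable section

namespace P205F

open scoped Manifold ContDiff Topology RealInnerProductSpace
open Set

variable {M : Type} [TopologicalSpace M] [ChartedSpace E2 M] [IsManifold 𝓘(ℝ, E2) ∞ M] [T2Space M]
  [CompactSpace M] {tf : ℝ → ℝ}

omit [IsManifold 𝓘(ℝ, E2) ∞ M] [T2Space M] [CompactSpace M] in
theorem XF_mono {𝒜 : FinAtlas M} {r : ℕ} {u : M → V4} {η η' : ℝ} (h : η ≤ η') {p : M}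
    (hu : ClAt 𝒜 r u η p) : ClAt 𝒜 r u η' p := fun k h1 h2 j hj => (hu k h1 h2 j hj).trans h

omit [IsManifold 𝓘(ℝ, E2) ∞ M] [T2Space M] [CompactSpace M] in
theorem XF_nonneg (φ : OpenPartialHomeomorph M E2) (F : M → V4) (x v : E2) :
    0 ≤ locT φ (metr F) x v v := by
  show 0 ≤ ⟪dP F (φ.symm x) (TTi φ x v), dP F (φ.symm x) (TTi φ x v)⟫
  exact real_inner_self_nonneg

theorem XF_gram_nonneg (F : E2 → V4) (v x : E2) : 0 ≤ gramV F v x := by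
  unfold gramV
  rw [gram3_eq_minors]
  positivity

/-- application of theorem T to the family -/
theorem XF_apply (hT : ThmT M) (c : Cfg M tf) (𝒜 : FinAtlas M)
    (hfam : ∀ K : ℕ, ∃ F : ℝ → E2 → V4, c.IsFam K F) : ∃ (K : ℕ) (F : ℝ → E2 → V4), c.IsFam K F ∧
      ∀ ε0 η : ℝ, 0 < ε0 → 0 < η → ∃ ε ∈ Ioo (0 : ℝ) 1, ε < ε0 ∧ ∃ F' : M → V4, Sm F' ∧
        (∀ p, metr F' p = c.tgt p) ∧ ∀ p, ClAt 𝒜 3 (F' - c.gl F ε) η p := by
  obtain ⟨m, s, C, hC, hTT⟩ := hT 𝒜 3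
  obtain ⟨F, hF⟩ := hfam (s + 3 + (s + 2) * m)
  refine ⟨s + 3 + (s + 2) * m, F, hF, fun ε0 η hε0 hη => ?_⟩
  obtain ⟨C1, h1⟩ := XD1_bound c 𝒜 hF s
  obtain ⟨C2, h2⟩ := XD2_metric c 𝒜 hF s
  obtain ⟨C3, ε3, hε3, h3⟩ := XD3_imm c 𝒜 (by omega) hF
  obtain ⟨C4, ε4, hε4, h4⟩ := XD4_good c 𝒜 hF
  -- the bound for all constants
  obtain ⟨B, hB⟩ : ∃ B : ℝ, B = 2 + C + |C1| + |C2| + |C3| + |C4| + (η ^ 4)⁻¹ := ⟨_, rfl⟩
  have hη4 : 0 < (η ^ 4)⁻¹ := by positivity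
  have a1 := abs_nonneg C1
  have a2 := abs_nonneg C2
  have a3 := abs_nonneg C3
  have a4 := abs_nonneg C4
  have hB0 : 0 < B := by rw [hB]; positivity
  obtain ⟨ε, hε, hεB, hεm⟩ : ∃ ε : ℝ, 0 < ε ∧ ε * B ≤ 1 ∧ ε < min ε0 (min ε3 ε4) := by
    have hm : 0 < min ε0 (min ε3 ε4) := lt_min hε0 (lt_min hε3 hε4)
    refine ⟨min B⁻¹ (min ε0 (min ε3 ε4) / 2), lt_min (inv_pos.mpr hB0) (by linarith), ?_, ?_⟩
    · calc min B⁻¹ (min ε0 (min ε3 ε4) / 2) * B ≤ B⁻¹ * B :=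
          mul_le_mul_of_nonneg_right (min_le_left _ _) hB0.le
        _ = 1 := inv_mul_cancel₀ hB0.ne'
    · exact (min_le_right _ _).trans_lt (by linarith)
  have hBε : B ≤ ε⁻¹ := by
    rw [← one_div, le_div_iff₀ hε]
    linarith
  have hε1 : ε < 1 := by
    have : ε * 2 ≤ ε * B := mul_le_mul_of_nonneg_left (by rw [hB]; linarith) hε.le
    linarith
  have hε01 : ε ∈ Ioo (0 : ℝ) 1 := ⟨hε, hε1⟩
  have hinv1 : 1 ≤ ε⁻¹ := by
    rw [← one_div, le_div_iff₀ hε]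
    linarith
  have hε' : ε < ε0 := hεm.trans_le (min_le_left _ _)
  have hε3' : ε < ε3 := hεm.trans_le ((min_le_right _ _).trans (min_le_left _ _))
  have hε4' : ε < ε4 := hεm.trans_le ((min_le_right _ _).trans (min_le_right _ _))
  have hC1 : C1 ≤ ε⁻¹ := (le_abs_self C1).trans (le_trans (by rw [hB]; linarith) hBε)
  have hC2 : C2 ≤ ε⁻¹ := (le_abs_self C2).trans (le_trans (by rw [hB]; linarith) hBε)
  have hC3 : C3 ≤ ε⁻¹ := (le_abs_self C3).trans (le_trans (by rw [hB]; linarith) hBε)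
  have hC4 : C4 ≤ ε⁻¹ := (le_abs_self C4).trans (le_trans (by rw [hB]; linarith) hBε)
  have hC0 : C ≤ ε⁻¹ := le_trans (by rw [hB]; linarith) hBε
  have hη' : (η ^ 4)⁻¹ ≤ ε⁻¹ := le_trans (by rw [hB]; linarith) hBε
  have hpow1 : ε⁻¹ ≤ ε⁻¹ ^ (s + 2) := by
    calc ε⁻¹ = ε⁻¹ ^ 1 := (pow_one _).symm
      _ ≤ ε⁻¹ ^ (s + 2) := pow_le_pow_right₀ hinv1 (by omega)
  refine ⟨ε, hε01, hε', ?_⟩
  have hδ : 0 < ε ^ (1 + (s + 2) * m) := pow_pos hε _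
  have hX := hTT (ε⁻¹ ^ (s + 2)) (ε ^ (1 + (s + 2) * m)) (c.gl F ε) c.tgt
    (hinv1.trans hpow1) hδ ?_ (Cfg.sm_gl hF hε01) (XD2_smT c) (XD2_symm c) ?_ ?_ ?_ ?_
  · obtain ⟨F', f1, f2, f3⟩ := hX
    refine ⟨F', f1, f2, fun p => XF_mono ?_ (f3 p)⟩
    have e1 : ε ^ (1 + (s + 2) * m) ≤ ε := by
      calc ε ^ (1 + (s + 2) * m) ≤ ε ^ 1 := pow_le_pow_of_le_one hε.le hε1.le (by omega)
        _ = ε := pow_one _
    have e2 : ε ≤ η ^ 4 := by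
      rwa [inv_le_inv₀ (by positivity) hε] at hη'
    calc (ε ^ (1 + (s + 2) * m)) ^ ((1 : ℝ) / 4) ≤ (η ^ 4) ^ ((1 : ℝ) / 4) :=
          Real.rpow_le_rpow hδ.le (e1.trans e2) (by norm_num)
      _ = η := by
          rw [← Real.rpow_natCast, ← Real.rpow_mul hη.le]
          norm_num
  · have e1 : C * (ε⁻¹ ^ (s + 2)) ^ m * ε ^ (1 + (s + 2) * m) = C * ε := by
      rw [← pow_mul, pow_add ε 1, pow_one, inv_pow]
      field_simp
    rw [e1]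
    calc C * ε ≤ ε⁻¹ * ε := mul_le_mul_of_nonneg_right hC0 hε.le
      _ = 1 := inv_mul_cancel₀ hε.ne'
  · intro p
    refine XF_mono ?_ (h1 ε hε01 p)
    calc C1 * ε⁻¹ ^ (s + 1) ≤ ε⁻¹ * ε⁻¹ ^ (s + 1) :=
          mul_le_mul_of_nonneg_right hC1 (by positivity)
      _ = ε⁻¹ ^ (s + 2) := by rw [← pow_succ']
  · intro k x hx v
    refine (h3 ε hε01 hε3' k x hx v).trans ?_
    exact mul_le_mul_of_nonneg_right (hC3.trans hpow1) (XF_nonneg _ _ _ _)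
  · intro k x hx
    obtain ⟨v, hv, hv2⟩ := h4 ε hε01 hε4' k x hx
    refine ⟨v, hv, hv2.trans ?_⟩
    exact mul_le_mul_of_nonneg_right (hC4.trans hpow1) (XF_gram_nonneg _ _ _)
  · intro k x hx j hj
    refine (h2 ε hε01 k x hx j hj).trans ?_
    have e1 : C2 * ε ^ (s + 3 + (s + 2) * m) * ε⁻¹ ^ (s + 1) =
        C2 * ε * ε ^ (1 + (s + 2) * m) := by
      rw [show s + 3 + (s + 2) * m = (s + 1) + 1 + (1 + (s + 2) * m) by ring, pow_add, pow_add,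
        inv_pow, pow_one]
      field_simp
    rw [e1]
    have e2 : C2 * ε ≤ 1 := by
      calc C2 * ε ≤ ε⁻¹ * ε := mul_le_mul_of_nonneg_right hC2 hε.le
        _ = 1 := inv_mul_cancel₀ hε.ne'
    calc C2 * ε * ε ^ (1 + (s + 2) * m) ≤ 1 * ε ^ (1 + (s + 2) * m) :=
          mul_le_mul_of_nonneg_right e2 hδ.le
      _ = ε ^ (1 + (s + 2) * m) := one_mul _

theorem thmES (hT : ThmT M) (hE : ES.ESAStmt) : ThmES M := by
  obtain ⟨tf, htf, htf0, hE'⟩ := hE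
  refine ⟨tf, htf, fun f κ a hf hgood hκ ht hflat hapos hs hg 𝒜 tol htol => ?_⟩
  obtain ⟨b, hb1, hb2, hb3⟩ := exists_flatB hκ ht hflat hs
  have ha : Sm a := by
    obtain ⟨θ, hθ, hθa⟩ := hflat 1 le_rfl
    have : a = θ := by
      funext p
      rw [← (hθa p).2, pow_one]
    rw [this]
    exact hθ
  have hsub : Metric.closedBall (0 : E2) 3 ⊆ κ.target :=
    (Metric.closedBall_subset_closedBall (by norm_num)).trans ht
  have hli : ∀ x ∈ Metric.closedBall (0 : E2) 3, LinearIndependent ℝ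
      ![ES.d1 (f ∘ κ.symm) x, ES.d2 (f ∘ κ.symm) x, ES.d2 (ES.d2 (f ∘ κ.symm)) x] := by
    intro x hx
    exact (gram3_pos_iff _ _ _).1 (hg x hx)
  obtain ⟨O', y, hO', hOs, hOt, hys, hy, hfam⟩ := hE' (f ∘ κ.symm) κ.target b κ.open_target hsub
    (hf.loc hκ) hli hb1 hb3
  let c : Cfg M tf :=
    { f := f, κ := κ, a := a, b := b, y := y, O' := O', htf := htf, tf0 := htf0, hf := hf
      hgood := hgood, hκ := hκ, ht := ht, ha := ha, hs := hs, hg := hg, hbs := hb1.1, hb := hb2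
      hb1 := hb3, hO' := hO', hOs := hOs, hOt := hOt, hys := hys, hy := hy }
  obtain ⟨K, F, hF, hX⟩ := XF_apply hT c 𝒜 hfam
  obtain ⟨ε1, η1, hε1, hη1, h1⟩ := XD5_chart c 𝒜 hF htol
  obtain ⟨ε2, η2, hε2, hη2, h2⟩ := XD5_good c 𝒜 hF
  obtain ⟨ε, hε, hεl, F', f1, f2, f3⟩ := hX (min ε1 ε2) (min tol (min η1 η2)) (lt_min hε1 hε2)
    (lt_min htol (lt_min hη1 hη2))
  have k1 : min tol (min η1 η2) ≤ η1 := (min_le_right _ _).trans (min_le_left _ _)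
  have k2 : min tol (min η1 η2) ≤ η2 := (min_le_right _ _).trans (min_le_right _ _)
  refine ⟨F', f1, h2 ε hε (hεl.trans_le (min_le_right _ _)) F' f1 fun p => XF_mono k2 (f3 p), f2,
    fun p hp => XF_mono (min_le_left _ _) (XD5_off c 𝒜 hF hε f3 hp), ?_⟩
  exact h1 ε hε (hεl.trans_le (min_le_left _ _)) F' f1 fun p => XF_mono k1 (f3 p)

end P205F
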