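import Mathlib
import Vale.Agent.Lib.P205E.EStmt
import Vale.Agent.Lib.P205F.TDefs

/-!
# P205X module XA1: flat functions in the plane

`b = θ ^ n` with `θ` smooth, nonnegative, supported in the closed ball (so all derivatives of `θ` are bounded):
`‖D^r b‖ ≤ C θ ^ (n - r)` for `n > r` (induction on `r`: `D^r (θ^n)` is a sum of products with at least `n - r` factors `θ`;
for instance by induction on `r` for all `n` through `D (θ^n) = n θ^(n-1) • Dθ` and the Leibniz bound).  With `n c ≥ r`: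
`θ ^ (n - r) ≤ C θ ^ (n (1 - c)) = C b ^ (1 - c)`.
-/

noncomputable section

namespace P205F

open scoped ContDiff
open Set

/-- smooth functions vanishing outside the closed unit ball have bounded derivatives -/
theorem XA1_bdd {V : Type*} [NormedAddCommGroup V] [NormedSpace ℝ V] (g : E2 → V)
    (hg : ContDiff ℝ ∞ g) (hs : HasCompactSupport g) (j : ℕ) :
    ∃ C : ℝ, 0 ≤ C ∧ ∀ x, ‖iteratedFDeriv ℝ j g x‖ ≤ C := by
  obtain ⟨C, hC⟩ := Continuous.bounded_above_of_compact_support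
    (hg.continuous_iteratedFDeriv (m := j) (by exact_mod_cast le_top)) (hs.iteratedFDeriv j)
  exact ⟨C, (norm_nonneg _).trans (hC 0), hC⟩

theorem XA1_compact (θ : E2 → ℝ)
    (hs : ∀ x, θ x ≠ 0 → x ∈ Metric.closedBall (0 : E2) 1) : HasCompactSupport θ := by
  refine HasCompactSupport.intro (isCompact_closedBall (0 : E2) 1) fun x hx => ?_
  by_contra h
  exact hx (hs x h)

theorem XA1_aux (θ : E2 → ℝ) (hθ : ContDiff ℝ ∞ θ) (h0 : ∀ x, 0 ≤ θ x)
    (hc : HasCompactSupport θ) (r : ℕ) : ∀ n : ℕ, r < n →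
    ∃ C : ℝ, 0 ≤ C ∧ ∀ x, ‖iteratedFDeriv ℝ r (fun y => θ y ^ n) x‖ ≤ C * θ x ^ (n - r) := by
  induction r using Nat.strong_induction_on with
  | _ r ih =>
    intro n hn
    rcases Nat.eq_zero_or_pos r with h | h
    · subst h
      refine ⟨1, zero_le_one, fun x => ?_⟩
      rw [norm_iteratedFDeriv_zero, one_mul, Nat.sub_zero, Real.norm_eq_abs,
        abs_of_nonneg (pow_nonneg (h0 x) n)]
    · obtain ⟨s, rfl⟩ : ∃ s, r = s + 1 := ⟨r - 1, by omega⟩
      obtain ⟨m, rfl⟩ : ∃ m, n = m + 1 := ⟨n - 1, by omega⟩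
      have hsm : s < m := by omega
      obtain ⟨B, hB0, hB⟩ := XA1_bdd θ hθ hc 0
      have hθB : ∀ x, θ x ≤ B := fun x => by
        have h1 := hB x
        rw [norm_iteratedFDeriv_zero, Real.norm_eq_abs, abs_of_nonneg (h0 x)] at h1
        exact h1
      have hfd : fderiv ℝ (fun y => θ y ^ (m + 1)) =
          fun y => (θ y ^ m) • (((m : ℝ) + 1) • fderiv ℝ θ y) := by
        funext y
        have h1 : HasFDerivAt θ (fderiv ℝ θ y) y :=
          (hθ.differentiable (by simp) y).hasFDerivAt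
        have h2 := h1.pow (m + 1)
        rw [h2.fderiv, Nat.add_sub_cancel, smul_smul]
        congr 1
        simp only [nsmul_eq_mul]
        push_cast
        ring
      set g : E2 → (E2 →L[ℝ] ℝ) := fun y => ((m : ℝ) + 1) • fderiv ℝ θ y with hg
      have hgs : ContDiff ℝ ∞ g := (hθ.fderiv_right (m := ∞) (by simp)).const_smul _
      have hgc : HasCompactSupport g :=
        (hc.fderiv ℝ).smul_left (f := fun _ => (m : ℝ) + 1)
      choose K hK0 hK using fun j => XA1_bdd g hgs hgc j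
      have hps : ContDiff ℝ ∞ (fun y => θ y ^ m) := hθ.pow m
      have hih : ∀ i, ∃ C : ℝ, 0 ≤ C ∧ (i < s + 1 → ∀ x,
          ‖iteratedFDeriv ℝ i (fun y => θ y ^ m) x‖ ≤ C * θ x ^ (m - i)) := by
        intro i
        by_cases hi : i < s + 1
        · obtain ⟨C, hC0, hC⟩ := ih i hi m (by omega)
          exact ⟨C, hC0, fun _ => hC⟩
        · exact ⟨0, le_rfl, fun h => absurd h hi⟩
      choose A hA0 hA using hih
      refine ⟨∑ i ∈ Finset.range (s + 1), ((s.choose i : ℕ) : ℝ) * (A i * B ^ (s - i)) * K (s - i),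
        Finset.sum_nonneg fun i _ => by
          have := hA0 i
          have := hK0 (s - i)
          positivity, fun x => ?_⟩
      rw [← norm_iteratedFDeriv_fderiv, hfd]
      have h1 := norm_iteratedFDeriv_smul_le (N := ∞) (n := s) hps hgs x
        (by exact_mod_cast le_top)
      refine h1.trans ?_
      rw [Finset.sum_mul]
      refine Finset.sum_le_sum fun i hi => ?_
      have hi' : i < s + 1 := Finset.mem_range.1 hi
      have h2 : m + 1 - (s + 1) = m - s := by omega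
      have h3 : θ x ^ (m - i) ≤ B ^ (s - i) * θ x ^ (m - s) := by
        have h4 : m - i = (s - i) + (m - s) := by omega
        rw [h4, pow_add]
        exact mul_le_mul_of_nonneg_right (pow_le_pow_left₀ (h0 x) (hθB x) _)
          (pow_nonneg (h0 x) _)
      have h5 : ‖iteratedFDeriv ℝ i (fun y => θ y ^ m) x‖ ≤ A i * (B ^ (s - i) * θ x ^ (m - s)) :=
        (hA i hi' x).trans (mul_le_mul_of_nonneg_left h3 (hA0 i))
      have h6 : 0 ≤ A i * (B ^ (s - i) * θ x ^ (m - s)) := by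
        have := hA0 i
        have := h0 x
        positivity
      rw [h2]
      calc ((s.choose i : ℕ) : ℝ) * ‖iteratedFDeriv ℝ i (fun y => θ y ^ m) x‖ *
            ‖iteratedFDeriv ℝ (s - i) g x‖
          ≤ ((s.choose i : ℕ) : ℝ) * (A i * (B ^ (s - i) * θ x ^ (m - s))) * K (s - i) := by
            gcongr
            exact hK _ x
        _ = ((s.choose i : ℕ) : ℝ) * (A i * B ^ (s - i)) * K (s - i) * θ x ^ (m - s) := by ring

theorem XA1_pow (θ : E2 → ℝ) (hθ : ContDiff ℝ ∞ θ) (h0 : ∀ x, 0 ≤ θ x)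
    (hs : ∀ x, θ x ≠ 0 → x ∈ Metric.closedBall (0 : E2) 1) (r n : ℕ) (hr : r < n) :
    ∃ C : ℝ, ∀ x, ‖iteratedFDeriv ℝ r (fun y => θ y ^ n) x‖ ≤ C * θ x ^ (n - r) := by
  obtain ⟨C, -, hC⟩ := XA1_aux θ hθ h0 (XA1_compact θ hs) r n hr
  exact ⟨C, hC⟩

theorem flatB_of_roots {b : E2 → ℝ} (h : ∀ n : ℕ, 1 ≤ n → ∃ θ : E2 → ℝ, ContDiff ℝ ∞ θ ∧
      ∀ x, 0 ≤ θ x ∧ θ x ^ n = b x)
    (hs : ∀ x, b x ≠ 0 → x ∈ Metric.closedBall (0 : E2) 1) : ES.FlatB b := by
  have hb : ContDiff ℝ ∞ b ∧ ∀ x, 0 ≤ b x := by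
    obtain ⟨θ, hθ, hx⟩ := h 1 le_rfl
    have h1 : b = θ := by
      funext x
      rw [← (hx x).2, pow_one]
    rw [h1]
    exact ⟨hθ, fun x => (hx x).1⟩
  refine ⟨hb.1, hb.2, fun r c hc hc1 => ?_⟩
  obtain ⟨N, hN⟩ := exists_nat_gt ((r : ℝ) / c)
  obtain ⟨n, hn⟩ : ∃ n, n = max (r + 1) N := ⟨_, rfl⟩
  have hrn : r < n := by omega
  have hnc : (r : ℝ) ≤ n * c := by
    have h1 : (N : ℝ) ≤ n := by
      exact_mod_cast (by omega : N ≤ n)
    rw [div_lt_iff₀ hc] at hN
    nlinarith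
  obtain ⟨θ, hθ, hx⟩ := h n (by omega)
  have h0 : ∀ x, 0 ≤ θ x := fun x => (hx x).1
  have hbe : b = fun y => θ y ^ n := by
    funext x
    exact (hx x).2.symm
  have hsθ : ∀ x, θ x ≠ 0 → x ∈ Metric.closedBall (0 : E2) 1 := by
    intro x hx0
    apply hs
    rw [hbe]
    exact pow_ne_zero n hx0
  obtain ⟨C, hC0, hC⟩ := XA1_aux θ hθ h0 (XA1_compact θ hsθ) r n hrn
  obtain ⟨B, hB0, hB⟩ := XA1_bdd θ hθ (XA1_compact θ hsθ) 0
  have hθB : ∀ x, θ x ≤ B := fun x => by
    have h1 := hB x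
    rw [norm_iteratedFDeriv_zero, Real.norm_eq_abs, abs_of_nonneg (h0 x)] at h1
    exact h1
  refine ⟨C * B ^ ((n : ℝ) * c - r), fun x => ?_⟩
  have hkey : θ x ^ (n - r) ≤ B ^ ((n : ℝ) * c - r) * (θ x ^ n) ^ (1 - c) := by
    rcases eq_or_lt_of_le (h0 x) with h1 | h1
    · rw [← h1, zero_pow (by omega), zero_pow (by omega), Real.zero_rpow (by linarith), mul_zero]
    · have h2 : θ x ^ (n - r) = θ x ^ ((n : ℝ) * c - r) * (θ x ^ n) ^ (1 - c) := by
        rw [← Real.rpow_natCast (θ x) n, ← Real.rpow_mul h1.le, ← Real.rpow_add h1,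
          ← Real.rpow_natCast (θ x) (n - r), Nat.cast_sub hrn.le]
        congr 1
        ring
      rw [h2]
      refine mul_le_mul_of_nonneg_right ?_ (by positivity)
      exact Real.rpow_le_rpow h1.le (hθB x) (by linarith)
  rw [hbe]
  calc ‖iteratedFDeriv ℝ r (fun y => θ y ^ n) x‖ ≤ C * θ x ^ (n - r) := hC x
    _ ≤ C * (B ^ ((n : ℝ) * c - r) * (θ x ^ n) ^ (1 - c)) := mul_le_mul_of_nonneg_left hkey hC0
    _ = C * B ^ ((n : ℝ) * c - r) * (θ x ^ n) ^ (1 - c) := by ring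

end P205F
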